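import Vale.Agent.P154.R4.T7.APow

namespace Vale.Agent.P154

set_option maxRecDepth 1000000
set_option maxHeartbeats 4000000

def t7AP2_0_0 : P4 := [[[[2]]]]

theorem t7AP2_0_0_ev (u0 u1 u2 u3 : ℝ) : ev4 u0 u1 u2 u3 t7AP2_0_0 = pm2 (ev4 u0 u1 u2 u3 t7AZ) (ev4 u0 u1 u2 u3 t7AW) 0 0 := by
  rw [ev4_eq_of_zr u0 u1 u2 u3 t7AP2_0_0 (add4 (mul4 t7AZP0 t7AWP0) (mul4 t7AZP0 t7AWP0)) (by decide +kernel)]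
  simp only [ev4_add, ev4_mul, t7AZP0_ev, t7AWP0_ev, t7AZP0_ev, t7AWP0_ev, pm2]

def t7AP2_1_0 : P4 := [[[],[[1]]],[[[2]]]]

theorem t7AP2_1_0_ev (u0 u1 u2 u3 : ℝ) : ev4 u0 u1 u2 u3 t7AP2_1_0 = pm2 (ev4 u0 u1 u2 u3 t7AZ) (ev4 u0 u1 u2 u3 t7AW) 1 0 := by
  rw [ev4_eq_of_zr u0 u1 u2 u3 t7AP2_1_0 (add4 (mul4 t7AZP1 t7AWP0) (mul4 t7AZP0 t7AWP1)) (by decide +kernel)]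
  simp only [ev4_add, ev4_mul, t7AZP1_ev, t7AWP0_ev, t7AZP0_ev, t7AWP1_ev, pm2]

def t7AP2_1_1 : P4 := [[],[[],[[2]]],[[[2]]]]

theorem t7AP2_1_1_ev (u0 u1 u2 u3 : ℝ) : ev4 u0 u1 u2 u3 t7AP2_1_1 = pm2 (ev4 u0 u1 u2 u3 t7AZ) (ev4 u0 u1 u2 u3 t7AW) 1 1 := by
  rw [ev4_eq_of_zr u0 u1 u2 u3 t7AP2_1_1 (add4 (mul4 t7AZP1 t7AWP1) (mul4 t7AZP1 t7AWP1)) (by decide +kernel)]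
  simp only [ev4_add, ev4_mul, t7AZP1_ev, t7AWP1_ev, t7AZP1_ev, t7AWP1_ev, pm2]

def t7AP2_2_0 : P4 := [[[],[],[[1]]],[[],[[2]]],[[[2]]]]

theorem t7AP2_2_0_ev (u0 u1 u2 u3 : ℝ) : ev4 u0 u1 u2 u3 t7AP2_2_0 = pm2 (ev4 u0 u1 u2 u3 t7AZ) (ev4 u0 u1 u2 u3 t7AW) 2 0 := by
  rw [ev4_eq_of_zr u0 u1 u2 u3 t7AP2_2_0 (add4 (mul4 t7AZP2 t7AWP0) (mul4 t7AZP0 t7AWP2)) (by decide +kernel)]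
  simp only [ev4_add, ev4_mul, t7AZP2_ev, t7AWP0_ev, t7AZP0_ev, t7AWP2_ev, pm2]

def t7AP2_2_1 : P4 := [[],[[],[],[[1]]],[[],[[3]]],[[[2]]]]

theorem t7AP2_2_1_ev (u0 u1 u2 u3 : ℝ) : ev4 u0 u1 u2 u3 t7AP2_2_1 = pm2 (ev4 u0 u1 u2 u3 t7AZ) (ev4 u0 u1 u2 u3 t7AW) 2 1 := by
  rw [ev4_eq_of_zr u0 u1 u2 u3 t7AP2_2_1 (add4 (mul4 t7AZP2 t7AWP1) (mul4 t7AZP1 t7AWP2)) (by decide +kernel)]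
  simp only [ev4_add, ev4_mul, t7AZP2_ev, t7AWP1_ev, t7AZP1_ev, t7AWP2_ev, pm2]

def t7AP2_2_2 : P4 := [[],[],[[],[],[[2]]],[[],[[4]]],[[[2]]]]

theorem t7AP2_2_2_ev (u0 u1 u2 u3 : ℝ) : ev4 u0 u1 u2 u3 t7AP2_2_2 = pm2 (ev4 u0 u1 u2 u3 t7AZ) (ev4 u0 u1 u2 u3 t7AW) 2 2 := by
  rw [ev4_eq_of_zr u0 u1 u2 u3 t7AP2_2_2 (add4 (mul4 t7AZP2 t7AWP2) (mul4 t7AZP2 t7AWP2)) (by decide +kernel)]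
  simp only [ev4_add, ev4_mul, t7AZP2_ev, t7AWP2_ev, t7AZP2_ev, t7AWP2_ev, pm2]

def t7AP2_3_0 : P4 := [[[],[],[],[[1]]],[[],[],[[3]]],[[],[[3]]],[[[2]]]]

theorem t7AP2_3_0_ev (u0 u1 u2 u3 : ℝ) : ev4 u0 u1 u2 u3 t7AP2_3_0 = pm2 (ev4 u0 u1 u2 u3 t7AZ) (ev4 u0 u1 u2 u3 t7AW) 3 0 := by
  rw [ev4_eq_of_zr u0 u1 u2 u3 t7AP2_3_0 (add4 (mul4 t7AZP3 t7AWP0) (mul4 t7AZP0 t7AWP3)) (by decide +kernel)]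
  simp only [ev4_add, ev4_mul, t7AZP3_ev, t7AWP0_ev, t7AZP0_ev, t7AWP3_ev, pm2]

def t7AP2_3_1 : P4 := [[],[[],[],[],[[1]]],[[],[],[[3]]],[[],[[4]]],[[[2]]]]

theorem t7AP2_3_1_ev (u0 u1 u2 u3 : ℝ) : ev4 u0 u1 u2 u3 t7AP2_3_1 = pm2 (ev4 u0 u1 u2 u3 t7AZ) (ev4 u0 u1 u2 u3 t7AW) 3 1 := by
  rw [ev4_eq_of_zr u0 u1 u2 u3 t7AP2_3_1 (add4 (mul4 t7AZP3 t7AWP1) (mul4 t7AZP1 t7AWP3)) (by decide +kernel)]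
  simp only [ev4_add, ev4_mul, t7AZP3_ev, t7AWP1_ev, t7AZP1_ev, t7AWP3_ev, pm2]

def t7AP2_3_2 : P4 := [[],[],[[],[],[],[[1]]],[[],[],[[4]]],[[],[[5]]],[[[2]]]]

theorem t7AP2_3_2_ev (u0 u1 u2 u3 : ℝ) : ev4 u0 u1 u2 u3 t7AP2_3_2 = pm2 (ev4 u0 u1 u2 u3 t7AZ) (ev4 u0 u1 u2 u3 t7AW) 3 2 := by
  rw [ev4_eq_of_zr u0 u1 u2 u3 t7AP2_3_2 (add4 (mul4 t7AZP3 t7AWP2) (mul4 t7AZP2 t7AWP3)) (by decide +kernel)]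
  simp only [ev4_add, ev4_mul, t7AZP3_ev, t7AWP2_ev, t7AZP2_ev, t7AWP3_ev, pm2]

def t7AP2_3_3 : P4 := [[],[],[],[[],[],[],[[2]]],[[],[],[[6]]],[[],[[6]]],[[[2]]]]

theorem t7AP2_3_3_ev (u0 u1 u2 u3 : ℝ) : ev4 u0 u1 u2 u3 t7AP2_3_3 = pm2 (ev4 u0 u1 u2 u3 t7AZ) (ev4 u0 u1 u2 u3 t7AW) 3 3 := by
  rw [ev4_eq_of_zr u0 u1 u2 u3 t7AP2_3_3 (add4 (mul4 t7AZP3 t7AWP3) (mul4 t7AZP3 t7AWP3)) (by decide +kernel)]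
  simp only [ev4_add, ev4_mul, t7AZP3_ev, t7AWP3_ev, t7AZP3_ev, t7AWP3_ev, pm2]

def t7AP2_4_0 : P4 := [[[],[],[],[],[[1]]],[[],[],[],[[4]]],[[],[],[[6]]],[[],[[4]]],[[[2]]]]

theorem t7AP2_4_0_ev (u0 u1 u2 u3 : ℝ) : ev4 u0 u1 u2 u3 t7AP2_4_0 = pm2 (ev4 u0 u1 u2 u3 t7AZ) (ev4 u0 u1 u2 u3 t7AW) 4 0 := by
  rw [ev4_eq_of_zr u0 u1 u2 u3 t7AP2_4_0 (add4 (mul4 t7AZP4 t7AWP0) (mul4 t7AZP0 t7AWP4)) (by decide +kernel)]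
  simp only [ev4_add, ev4_mul, t7AZP4_ev, t7AWP0_ev, t7AZP0_ev, t7AWP4_ev, pm2]

def t7AP2_4_1 : P4 := [[],[[],[],[],[],[[1]]],[[],[],[],[[4]]],[[],[],[[6]]],[[],[[5]]],[[[2]]]]

theorem t7AP2_4_1_ev (u0 u1 u2 u3 : ℝ) : ev4 u0 u1 u2 u3 t7AP2_4_1 = pm2 (ev4 u0 u1 u2 u3 t7AZ) (ev4 u0 u1 u2 u3 t7AW) 4 1 := by
  rw [ev4_eq_of_zr u0 u1 u2 u3 t7AP2_4_1 (add4 (mul4 t7AZP4 t7AWP1) (mul4 t7AZP1 t7AWP4)) (by decide +kernel)]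
  simp only [ev4_add, ev4_mul, t7AZP4_ev, t7AWP1_ev, t7AZP1_ev, t7AWP4_ev, pm2]

def t7AP2_4_2 : P4 := [[],[],[[],[],[],[],[[1]]],[[],[],[],[[4]]],[[],[],[[7]]],[[],[[6]]],[[[2]]]]

theorem t7AP2_4_2_ev (u0 u1 u2 u3 : ℝ) : ev4 u0 u1 u2 u3 t7AP2_4_2 = pm2 (ev4 u0 u1 u2 u3 t7AZ) (ev4 u0 u1 u2 u3 t7AW) 4 2 := by
  rw [ev4_eq_of_zr u0 u1 u2 u3 t7AP2_4_2 (add4 (mul4 t7AZP4 t7AWP2) (mul4 t7AZP2 t7AWP4)) (by decide +kernel)]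
  simp only [ev4_add, ev4_mul, t7AZP4_ev, t7AWP2_ev, t7AZP2_ev, t7AWP4_ev, pm2]

def t7AP2_4_3 : P4 := [[],[],[],[[],[],[],[],[[1]]],[[],[],[],[[5]]],[[],[],[[9]]],[[],[[7]]],[[[2]]]]

theorem t7AP2_4_3_ev (u0 u1 u2 u3 : ℝ) : ev4 u0 u1 u2 u3 t7AP2_4_3 = pm2 (ev4 u0 u1 u2 u3 t7AZ) (ev4 u0 u1 u2 u3 t7AW) 4 3 := by
  rw [ev4_eq_of_zr u0 u1 u2 u3 t7AP2_4_3 (add4 (mul4 t7AZP4 t7AWP3) (mul4 t7AZP3 t7AWP4)) (by decide +kernel)]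
  simp only [ev4_add, ev4_mul, t7AZP4_ev, t7AWP3_ev, t7AZP3_ev, t7AWP4_ev, pm2]

def t7AP2_5_0 : P4 := [[[],[],[],[],[],[[1]]],[[],[],[],[],[[5]]],[[],[],[],[[10]]],[[],[],[[10]]],[[],[[5]]],[[[2]]]]

theorem t7AP2_5_0_ev (u0 u1 u2 u3 : ℝ) : ev4 u0 u1 u2 u3 t7AP2_5_0 = pm2 (ev4 u0 u1 u2 u3 t7AZ) (ev4 u0 u1 u2 u3 t7AW) 5 0 := by
  rw [ev4_eq_of_zr u0 u1 u2 u3 t7AP2_5_0 (add4 (mul4 t7AZP5 t7AWP0) (mul4 t7AZP0 t7AWP5)) (by decide +kernel)]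
  simp only [ev4_add, ev4_mul, t7AZP5_ev, t7AWP0_ev, t7AZP0_ev, t7AWP5_ev, pm2]

def t7AP2_5_1 : P4 := [[],[[],[],[],[],[],[[1]]],[[],[],[],[],[[5]]],[[],[],[],[[10]]],[[],[],[[10]]],[[],[[6]]],[[[2]]]]

theorem t7AP2_5_1_ev (u0 u1 u2 u3 : ℝ) : ev4 u0 u1 u2 u3 t7AP2_5_1 = pm2 (ev4 u0 u1 u2 u3 t7AZ) (ev4 u0 u1 u2 u3 t7AW) 5 1 := by
  rw [ev4_eq_of_zr u0 u1 u2 u3 t7AP2_5_1 (add4 (mul4 t7AZP5 t7AWP1) (mul4 t7AZP1 t7AWP5)) (by decide +kernel)]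
  simp only [ev4_add, ev4_mul, t7AZP5_ev, t7AWP1_ev, t7AZP1_ev, t7AWP5_ev, pm2]

def t7AP2_5_2 : P4 := [[],[],[[],[],[],[],[],[[1]]],[[],[],[],[],[[5]]],[[],[],[],[[10]]],[[],[],[[11]]],[[],[[7]]],[[[2]]]]

theorem t7AP2_5_2_ev (u0 u1 u2 u3 : ℝ) : ev4 u0 u1 u2 u3 t7AP2_5_2 = pm2 (ev4 u0 u1 u2 u3 t7AZ) (ev4 u0 u1 u2 u3 t7AW) 5 2 := by
  rw [ev4_eq_of_zr u0 u1 u2 u3 t7AP2_5_2 (add4 (mul4 t7AZP5 t7AWP2) (mul4 t7AZP2 t7AWP5)) (by decide +kernel)]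
  simp only [ev4_add, ev4_mul, t7AZP5_ev, t7AWP2_ev, t7AZP2_ev, t7AWP5_ev, pm2]

def t7AP2_6_0 : P4 := [[[],[],[],[],[],[],[[1]]],[[],[],[],[],[],[[6]]],[[],[],[],[],[[15]]],[[],[],[],[[20]]],[[],[],[[15]]],[[],[[6]]],[[[2]]]]

theorem t7AP2_6_0_ev (u0 u1 u2 u3 : ℝ) : ev4 u0 u1 u2 u3 t7AP2_6_0 = pm2 (ev4 u0 u1 u2 u3 t7AZ) (ev4 u0 u1 u2 u3 t7AW) 6 0 := by
  rw [ev4_eq_of_zr u0 u1 u2 u3 t7AP2_6_0 (add4 (mul4 t7AZP6 t7AWP0) (mul4 t7AZP0 t7AWP6)) (by decide +kernel)]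
  simp only [ev4_add, ev4_mul, t7AZP6_ev, t7AWP0_ev, t7AZP0_ev, t7AWP6_ev, pm2]

def t7AP2_6_1 : P4 := [[],[[],[],[],[],[],[],[[1]]],[[],[],[],[],[],[[6]]],[[],[],[],[],[[15]]],[[],[],[],[[20]]],[[],[],[[15]]],[[],[[7]]],[[[2]]]]

theorem t7AP2_6_1_ev (u0 u1 u2 u3 : ℝ) : ev4 u0 u1 u2 u3 t7AP2_6_1 = pm2 (ev4 u0 u1 u2 u3 t7AZ) (ev4 u0 u1 u2 u3 t7AW) 6 1 := by
  rw [ev4_eq_of_zr u0 u1 u2 u3 t7AP2_6_1 (add4 (mul4 t7AZP6 t7AWP1) (mul4 t7AZP1 t7AWP6)) (by decide +kernel)]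
  simp only [ev4_add, ev4_mul, t7AZP6_ev, t7AWP1_ev, t7AZP1_ev, t7AWP6_ev, pm2]

def t7AP2_7_0 : P4 := [[[],[],[],[],[],[],[],[[1]]],[[],[],[],[],[],[],[[7]]],[[],[],[],[],[],[[21]]],[[],[],[],[],[[35]]],[[],[],[],[[35]]],[[],[],[[21]]],[[],[[7]]],[[[2]]]]

theorem t7AP2_7_0_ev (u0 u1 u2 u3 : ℝ) : ev4 u0 u1 u2 u3 t7AP2_7_0 = pm2 (ev4 u0 u1 u2 u3 t7AZ) (ev4 u0 u1 u2 u3 t7AW) 7 0 := by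
  rw [ev4_eq_of_zr u0 u1 u2 u3 t7AP2_7_0 (add4 (mul4 t7AZP7 t7AWP0) (mul4 t7AZP0 t7AWP7)) (by decide +kernel)]
  simp only [ev4_add, ev4_mul, t7AZP7_ev, t7AWP0_ev, t7AZP0_ev, t7AWP7_ev, pm2]

end Vale.Agent.P154
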