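import Vale.Agent.P154.R4.T7.AP2

namespace Vale.Agent.P154

set_option maxRecDepth 1000000
set_option maxHeartbeats 4000000

def t7AP3_0_0_0 : P4 := [[[[6]]]]

theorem t7AP3_0_0_0_ev (u0 u1 u2 u3 : ℝ) : ev4 u0 u1 u2 u3 t7AP3_0_0_0 = pm3 (ev4 u0 u1 u2 u3 t7AY) (ev4 u0 u1 u2 u3 t7AZ) (ev4 u0 u1 u2 u3 t7AW) 0 0 0 := by
  rw [ev4_eq_of_zr u0 u1 u2 u3 t7AP3_0_0_0 (add4 (add4 (mul4 t7AYP0 t7AP2_0_0) (mul4 t7AYP0 t7AP2_0_0)) (mul4 t7AYP0 t7AP2_0_0)) (by decide +kernel)]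
  simp only [ev4_add, ev4_mul, t7AYP0_ev, t7AYP0_ev, t7AYP0_ev, t7AP2_0_0_ev, t7AP2_0_0_ev, t7AP2_0_0_ev, pm3]

def t7AP3_1_0_0 : P4 := [[[[],[2]],[[4]]],[[[6]]]]

theorem t7AP3_1_0_0_ev (u0 u1 u2 u3 : ℝ) : ev4 u0 u1 u2 u3 t7AP3_1_0_0 = pm3 (ev4 u0 u1 u2 u3 t7AY) (ev4 u0 u1 u2 u3 t7AZ) (ev4 u0 u1 u2 u3 t7AW) 1 0 0 := by
  rw [ev4_eq_of_zr u0 u1 u2 u3 t7AP3_1_0_0 (add4 (add4 (mul4 t7AYP1 t7AP2_0_0) (mul4 t7AYP0 t7AP2_1_0)) (mul4 t7AYP0 t7AP2_1_0)) (by decide +kernel)]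
  simp only [ev4_add, ev4_mul, t7AYP1_ev, t7AYP0_ev, t7AYP0_ev, t7AP2_0_0_ev, t7AP2_1_0_ev, t7AP2_1_0_ev, pm3]

def t7AP3_1_1_0 : P4 := [[[],[[],[2]],[[2]]],[[[],[4]],[[8]]],[[[6]]]]

theorem t7AP3_1_1_0_ev (u0 u1 u2 u3 : ℝ) : ev4 u0 u1 u2 u3 t7AP3_1_1_0 = pm3 (ev4 u0 u1 u2 u3 t7AY) (ev4 u0 u1 u2 u3 t7AZ) (ev4 u0 u1 u2 u3 t7AW) 1 1 0 := by
  rw [ev4_eq_of_zr u0 u1 u2 u3 t7AP3_1_1_0 (add4 (add4 (mul4 t7AYP1 t7AP2_1_0) (mul4 t7AYP1 t7AP2_1_0)) (mul4 t7AYP0 t7AP2_1_1)) (by decide +kernel)]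
  simp only [ev4_add, ev4_mul, t7AYP1_ev, t7AYP1_ev, t7AYP0_ev, t7AP2_1_0_ev, t7AP2_1_0_ev, t7AP2_1_1_ev, pm3]

def t7AP3_1_1_1 : P4 := [[],[[],[[],[6]],[[6]]],[[[],[6]],[[12]]],[[[6]]]]

theorem t7AP3_1_1_1_ev (u0 u1 u2 u3 : ℝ) : ev4 u0 u1 u2 u3 t7AP3_1_1_1 = pm3 (ev4 u0 u1 u2 u3 t7AY) (ev4 u0 u1 u2 u3 t7AZ) (ev4 u0 u1 u2 u3 t7AW) 1 1 1 := by
  rw [ev4_eq_of_zr u0 u1 u2 u3 t7AP3_1_1_1 (add4 (add4 (mul4 t7AYP1 t7AP2_1_1) (mul4 t7AYP1 t7AP2_1_1)) (mul4 t7AYP1 t7AP2_1_1)) (by decide +kernel)]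
  simp only [ev4_add, ev4_mul, t7AYP1_ev, t7AYP1_ev, t7AYP1_ev, t7AP2_1_1_ev, t7AP2_1_1_ev, t7AP2_1_1_ev, pm3]

def t7AP3_2_0_0 : P4 := [[[[],[],[2]],[[],[4]],[[4]]],[[[],[4]],[[8]]],[[[6]]]]

theorem t7AP3_2_0_0_ev (u0 u1 u2 u3 : ℝ) : ev4 u0 u1 u2 u3 t7AP3_2_0_0 = pm3 (ev4 u0 u1 u2 u3 t7AY) (ev4 u0 u1 u2 u3 t7AZ) (ev4 u0 u1 u2 u3 t7AW) 2 0 0 := by
  rw [ev4_eq_of_zr u0 u1 u2 u3 t7AP3_2_0_0 (add4 (add4 (mul4 t7AYP2 t7AP2_0_0) (mul4 t7AYP0 t7AP2_2_0)) (mul4 t7AYP0 t7AP2_2_0)) (by decide +kernel)]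
  simp only [ev4_add, ev4_mul, t7AYP2_ev, t7AYP0_ev, t7AYP0_ev, t7AP2_0_0_ev, t7AP2_2_0_ev, t7AP2_2_0_ev, pm3]

def t7AP3_2_1_0 : P4 := [[[],[[],[],[1]],[[],[3]],[[2]]],[[[],[],[2]],[[],[8]],[[8]]],[[[],[6]],[[12]]],[[[6]]]]

theorem t7AP3_2_1_0_ev (u0 u1 u2 u3 : ℝ) : ev4 u0 u1 u2 u3 t7AP3_2_1_0 = pm3 (ev4 u0 u1 u2 u3 t7AY) (ev4 u0 u1 u2 u3 t7AZ) (ev4 u0 u1 u2 u3 t7AW) 2 1 0 := by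
  rw [ev4_eq_of_zr u0 u1 u2 u3 t7AP3_2_1_0 (add4 (add4 (mul4 t7AYP2 t7AP2_1_0) (mul4 t7AYP1 t7AP2_2_0)) (mul4 t7AYP0 t7AP2_2_1)) (by decide +kernel)]
  simp only [ev4_add, ev4_mul, t7AYP2_ev, t7AYP1_ev, t7AYP0_ev, t7AP2_1_0_ev, t7AP2_2_0_ev, t7AP2_2_1_ev, pm3]

def t7AP3_2_1_1 : P4 := [[],[[],[[],[],[2]],[[],[6]],[[4]]],[[[],[],[2]],[[],[14]],[[14]]],[[[],[8]],[[16]]],[[[6]]]]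

theorem t7AP3_2_1_1_ev (u0 u1 u2 u3 : ℝ) : ev4 u0 u1 u2 u3 t7AP3_2_1_1 = pm3 (ev4 u0 u1 u2 u3 t7AY) (ev4 u0 u1 u2 u3 t7AZ) (ev4 u0 u1 u2 u3 t7AW) 2 1 1 := by
  rw [ev4_eq_of_zr u0 u1 u2 u3 t7AP3_2_1_1 (add4 (add4 (mul4 t7AYP2 t7AP2_1_1) (mul4 t7AYP1 t7AP2_2_1)) (mul4 t7AYP1 t7AP2_2_1)) (by decide +kernel)]
  simp only [ev4_add, ev4_mul, t7AYP2_ev, t7AYP1_ev, t7AYP1_ev, t7AP2_1_1_ev, t7AP2_2_1_ev, t7AP2_2_1_ev, pm3]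

def t7AP3_2_2_0 : P4 := [[[],[],[[],[],[2]],[[],[4]],[[2]]],[[],[[],[],[4]],[[],[12]],[[8]]],[[[],[],[4]],[[],[16]],[[16]]],[[[],[8]],[[16]]],[[[6]]]]

theorem t7AP3_2_2_0_ev (u0 u1 u2 u3 : ℝ) : ev4 u0 u1 u2 u3 t7AP3_2_2_0 = pm3 (ev4 u0 u1 u2 u3 t7AY) (ev4 u0 u1 u2 u3 t7AZ) (ev4 u0 u1 u2 u3 t7AW) 2 2 0 := by
  rw [ev4_eq_of_zr u0 u1 u2 u3 t7AP3_2_2_0 (add4 (add4 (mul4 t7AYP2 t7AP2_2_0) (mul4 t7AYP2 t7AP2_2_0)) (mul4 t7AYP0 t7AP2_2_2)) (by decide +kernel)]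
  simp only [ev4_add, ev4_mul, t7AYP2_ev, t7AYP2_ev, t7AYP0_ev, t7AP2_2_0_ev, t7AP2_2_0_ev, t7AP2_2_2_ev, pm3]

def t7AP3_2_2_1 : P4 := [[],[[],[],[[],[],[2]],[[],[4]],[[2]]],[[],[[],[],[6]],[[],[18]],[[12]]],[[[],[],[4]],[[],[24]],[[24]]],[[[],[10]],[[20]]],[[[6]]]]

theorem t7AP3_2_2_1_ev (u0 u1 u2 u3 : ℝ) : ev4 u0 u1 u2 u3 t7AP3_2_2_1 = pm3 (ev4 u0 u1 u2 u3 t7AY) (ev4 u0 u1 u2 u3 t7AZ) (ev4 u0 u1 u2 u3 t7AW) 2 2 1 := by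
  rw [ev4_eq_of_zr u0 u1 u2 u3 t7AP3_2_2_1 (add4 (add4 (mul4 t7AYP2 t7AP2_2_1) (mul4 t7AYP2 t7AP2_2_1)) (mul4 t7AYP1 t7AP2_2_2)) (by decide +kernel)]
  simp only [ev4_add, ev4_mul, t7AYP2_ev, t7AYP2_ev, t7AYP1_ev, t7AP2_2_1_ev, t7AP2_2_1_ev, t7AP2_2_2_ev, pm3]

def t7AP3_2_2_2 : P4 := [[],[],[[],[],[[],[],[6]],[[],[12]],[[6]]],[[],[[],[],[12]],[[],[36]],[[24]]],[[[],[],[6]],[[],[36]],[[36]]],[[[],[12]],[[24]]],[[[6]]]]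

theorem t7AP3_2_2_2_ev (u0 u1 u2 u3 : ℝ) : ev4 u0 u1 u2 u3 t7AP3_2_2_2 = pm3 (ev4 u0 u1 u2 u3 t7AY) (ev4 u0 u1 u2 u3 t7AZ) (ev4 u0 u1 u2 u3 t7AW) 2 2 2 := by
  rw [ev4_eq_of_zr u0 u1 u2 u3 t7AP3_2_2_2 (add4 (add4 (mul4 t7AYP2 t7AP2_2_2) (mul4 t7AYP2 t7AP2_2_2)) (mul4 t7AYP2 t7AP2_2_2)) (by decide +kernel)]
  simp only [ev4_add, ev4_mul, t7AYP2_ev, t7AYP2_ev, t7AYP2_ev, t7AP2_2_2_ev, t7AP2_2_2_ev, t7AP2_2_2_ev, pm3]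

def t7AP3_3_0_0 : P4 := [[[[],[],[],[2]],[[],[],[6]],[[],[6]],[[4]]],[[[],[],[6]],[[],[12]],[[12]]],[[[],[6]],[[12]]],[[[6]]]]

theorem t7AP3_3_0_0_ev (u0 u1 u2 u3 : ℝ) : ev4 u0 u1 u2 u3 t7AP3_3_0_0 = pm3 (ev4 u0 u1 u2 u3 t7AY) (ev4 u0 u1 u2 u3 t7AZ) (ev4 u0 u1 u2 u3 t7AW) 3 0 0 := by
  rw [ev4_eq_of_zr u0 u1 u2 u3 t7AP3_3_0_0 (add4 (add4 (mul4 t7AYP3 t7AP2_0_0) (mul4 t7AYP0 t7AP2_3_0)) (mul4 t7AYP0 t7AP2_3_0)) (by decide +kernel)]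
  simp only [ev4_add, ev4_mul, t7AYP3_ev, t7AYP0_ev, t7AYP0_ev, t7AP2_0_0_ev, t7AP2_3_0_ev, t7AP2_3_0_ev, pm3]

def t7AP3_3_1_0 : P4 := [[[],[[],[],[],[1]],[[],[],[3]],[[],[4]],[[2]]],[[[],[],[],[2]],[[],[],[9]],[[],[15]],[[10]]],[[[],[],[6]],[[],[18]],[[18]]],[[[],[8]],[[16]]],[[[6]]]]

theorem t7AP3_3_1_0_ev (u0 u1 u2 u3 : ℝ) : ev4 u0 u1 u2 u3 t7AP3_3_1_0 = pm3 (ev4 u0 u1 u2 u3 t7AY) (ev4 u0 u1 u2 u3 t7AZ) (ev4 u0 u1 u2 u3 t7AW) 3 1 0 := by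
  rw [ev4_eq_of_zr u0 u1 u2 u3 t7AP3_3_1_0 (add4 (add4 (mul4 t7AYP3 t7AP2_1_0) (mul4 t7AYP1 t7AP2_3_0)) (mul4 t7AYP0 t7AP2_3_1)) (by decide +kernel)]
  simp only [ev4_add, ev4_mul, t7AYP3_ev, t7AYP1_ev, t7AYP0_ev, t7AP2_1_0_ev, t7AP2_3_0_ev, t7AP2_3_1_ev, pm3]

def t7AP3_3_1_1 : P4 := [[],[[],[[],[],[],[2]],[[],[],[6]],[[],[8]],[[4]]],[[[],[],[],[2]],[[],[],[12]],[[],[24]],[[16]]],[[[],[],[6]],[[],[26]],[[26]]],[[[],[10]],[[20]]],[[[6]]]]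

theorem t7AP3_3_1_1_ev (u0 u1 u2 u3 : ℝ) : ev4 u0 u1 u2 u3 t7AP3_3_1_1 = pm3 (ev4 u0 u1 u2 u3 t7AY) (ev4 u0 u1 u2 u3 t7AZ) (ev4 u0 u1 u2 u3 t7AW) 3 1 1 := by
  rw [ev4_eq_of_zr u0 u1 u2 u3 t7AP3_3_1_1 (add4 (add4 (mul4 t7AYP3 t7AP2_1_1) (mul4 t7AYP1 t7AP2_3_1)) (mul4 t7AYP1 t7AP2_3_1)) (by decide +kernel)]
  simp only [ev4_add, ev4_mul, t7AYP3_ev, t7AYP1_ev, t7AYP1_ev, t7AP2_1_1_ev, t7AP2_3_1_ev, t7AP2_3_1_ev, pm3]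

def t7AP3_3_2_0 : P4 := [[[],[],[[],[],[],[1]],[[],[],[4]],[[],[5]],[[2]]],[[],[[],[],[],[2]],[[],[],[12]],[[],[20]],[[10]]],[[[],[],[],[2]],[[],[],[15]],[[],[33]],[[22]]],[[[],[],[8]],[[],[28]],[[28]]],[[[],[10]],[[20]]],[[[6]]]]

theorem t7AP3_3_2_0_ev (u0 u1 u2 u3 : ℝ) : ev4 u0 u1 u2 u3 t7AP3_3_2_0 = pm3 (ev4 u0 u1 u2 u3 t7AY) (ev4 u0 u1 u2 u3 t7AZ) (ev4 u0 u1 u2 u3 t7AW) 3 2 0 := by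
  rw [ev4_eq_of_zr u0 u1 u2 u3 t7AP3_3_2_0 (add4 (add4 (mul4 t7AYP3 t7AP2_2_0) (mul4 t7AYP2 t7AP2_3_0)) (mul4 t7AYP0 t7AP2_3_2)) (by decide +kernel)]
  simp only [ev4_add, ev4_mul, t7AYP3_ev, t7AYP2_ev, t7AYP0_ev, t7AP2_2_0_ev, t7AP2_3_0_ev, t7AP2_3_2_ev, pm3]

def t7AP3_3_2_1 : P4 := [[],[[],[],[[],[],[],[1]],[[],[],[4]],[[],[5]],[[2]]],[[],[[],[],[],[3]],[[],[],[15]],[[],[24]],[[12]]],[[[],[],[],[2]],[[],[],[19]],[[],[45]],[[30]]],[[[],[],[8]],[[],[38]],[[38]]],[[[],[12]],[[24]]],[[[6]]]]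

theorem t7AP3_3_2_1_ev (u0 u1 u2 u3 : ℝ) : ev4 u0 u1 u2 u3 t7AP3_3_2_1 = pm3 (ev4 u0 u1 u2 u3 t7AY) (ev4 u0 u1 u2 u3 t7AZ) (ev4 u0 u1 u2 u3 t7AW) 3 2 1 := by
  rw [ev4_eq_of_zr u0 u1 u2 u3 t7AP3_3_2_1 (add4 (add4 (mul4 t7AYP3 t7AP2_2_1) (mul4 t7AYP2 t7AP2_3_1)) (mul4 t7AYP1 t7AP2_3_2)) (by decide +kernel)]
  simp only [ev4_add, ev4_mul, t7AYP3_ev, t7AYP2_ev, t7AYP1_ev, t7AP2_2_1_ev, t7AP2_3_1_ev, t7AP2_3_2_ev, pm3]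

def t7AP3_3_2_2 : P4 := [[],[],[[],[],[[],[],[],[2]],[[],[],[8]],[[],[10]],[[4]]],[[],[[],[],[],[4]],[[],[],[26]],[[],[44]],[[22]]],[[[],[],[],[2]],[[],[],[28]],[[],[72]],[[48]]],[[[],[],[10]],[[],[52]],[[52]]],[[[],[14]],[[28]]],[[[6]]]]

theorem t7AP3_3_2_2_ev (u0 u1 u2 u3 : ℝ) : ev4 u0 u1 u2 u3 t7AP3_3_2_2 = pm3 (ev4 u0 u1 u2 u3 t7AY) (ev4 u0 u1 u2 u3 t7AZ) (ev4 u0 u1 u2 u3 t7AW) 3 2 2 := by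
  rw [ev4_eq_of_zr u0 u1 u2 u3 t7AP3_3_2_2 (add4 (add4 (mul4 t7AYP3 t7AP2_2_2) (mul4 t7AYP2 t7AP2_3_2)) (mul4 t7AYP2 t7AP2_3_2)) (by decide +kernel)]
  simp only [ev4_add, ev4_mul, t7AYP3_ev, t7AYP2_ev, t7AYP2_ev, t7AP2_2_2_ev, t7AP2_3_2_ev, t7AP2_3_2_ev, pm3]

def t7AP3_3_3_0 : P4 := [[[],[],[],[[],[],[],[2]],[[],[],[6]],[[],[6]],[[2]]],[[],[],[[],[],[],[6]],[[],[],[24]],[[],[30]],[[12]]],[[],[[],[],[],[6]],[[],[],[36]],[[],[60]],[[30]]],[[[],[],[],[4]],[[],[],[30]],[[],[66]],[[44]]],[[[],[],[12]],[[],[42]],[[42]]],[[[],[12]],[[24]]],[[[6]]]]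

theorem t7AP3_3_3_0_ev (u0 u1 u2 u3 : ℝ) : ev4 u0 u1 u2 u3 t7AP3_3_3_0 = pm3 (ev4 u0 u1 u2 u3 t7AY) (ev4 u0 u1 u2 u3 t7AZ) (ev4 u0 u1 u2 u3 t7AW) 3 3 0 := by
  rw [ev4_eq_of_zr u0 u1 u2 u3 t7AP3_3_3_0 (add4 (add4 (mul4 t7AYP3 t7AP2_3_0) (mul4 t7AYP3 t7AP2_3_0)) (mul4 t7AYP0 t7AP2_3_3)) (by decide +kernel)]
  simp only [ev4_add, ev4_mul, t7AYP3_ev, t7AYP3_ev, t7AYP0_ev, t7AP2_3_0_ev, t7AP2_3_0_ev, t7AP2_3_3_ev, pm3]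

def t7AP3_3_3_1 : P4 := [[],[[],[],[],[[],[],[],[2]],[[],[],[6]],[[],[6]],[[2]]],[[],[],[[],[],[],[6]],[[],[],[24]],[[],[30]],[[12]]],[[],[[],[],[],[8]],[[],[],[42]],[[],[68]],[[34]]],[[[],[],[],[4]],[[],[],[36]],[[],[84]],[[56]]],[[[],[],[12]],[[],[54]],[[54]]],[[[],[14]],[[28]]],[[[6]]]]

theorem t7AP3_3_3_1_ev (u0 u1 u2 u3 : ℝ) : ev4 u0 u1 u2 u3 t7AP3_3_3_1 = pm3 (ev4 u0 u1 u2 u3 t7AY) (ev4 u0 u1 u2 u3 t7AZ) (ev4 u0 u1 u2 u3 t7AW) 3 3 1 := by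
  rw [ev4_eq_of_zr u0 u1 u2 u3 t7AP3_3_3_1 (add4 (add4 (mul4 t7AYP3 t7AP2_3_1) (mul4 t7AYP3 t7AP2_3_1)) (mul4 t7AYP1 t7AP2_3_3)) (by decide +kernel)]
  simp only [ev4_add, ev4_mul, t7AYP3_ev, t7AYP3_ev, t7AYP1_ev, t7AP2_3_1_ev, t7AP2_3_1_ev, t7AP2_3_3_ev, pm3]

def t7AP3_4_0_0 : P4 := [[[[],[],[],[],[2]],[[],[],[],[8]],[[],[],[12]],[[],[8]],[[4]]],[[[],[],[],[8]],[[],[],[24]],[[],[24]],[[16]]],[[[],[],[12]],[[],[24]],[[24]]],[[[],[8]],[[16]]],[[[6]]]]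

theorem t7AP3_4_0_0_ev (u0 u1 u2 u3 : ℝ) : ev4 u0 u1 u2 u3 t7AP3_4_0_0 = pm3 (ev4 u0 u1 u2 u3 t7AY) (ev4 u0 u1 u2 u3 t7AZ) (ev4 u0 u1 u2 u3 t7AW) 4 0 0 := by
  rw [ev4_eq_of_zr u0 u1 u2 u3 t7AP3_4_0_0 (add4 (add4 (mul4 t7AYP4 t7AP2_0_0) (mul4 t7AYP0 t7AP2_4_0)) (mul4 t7AYP0 t7AP2_4_0)) (by decide +kernel)]
  simp only [ev4_add, ev4_mul, t7AYP4_ev, t7AYP0_ev, t7AYP0_ev, t7AP2_0_0_ev, t7AP2_4_0_ev, t7AP2_4_0_ev, pm3]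

def t7AP3_4_1_0 : P4 := [[[],[[],[],[],[],[1]],[[],[],[],[4]],[[],[],[6]],[[],[5]],[[2]]],[[[],[],[],[],[2]],[[],[],[],[12]],[[],[],[24]],[[],[24]],[[12]]],[[[],[],[],[8]],[[],[],[30]],[[],[42]],[[28]]],[[[],[],[12]],[[],[32]],[[32]]],[[[],[10]],[[20]]],[[[6]]]]

theorem t7AP3_4_1_0_ev (u0 u1 u2 u3 : ℝ) : ev4 u0 u1 u2 u3 t7AP3_4_1_0 = pm3 (ev4 u0 u1 u2 u3 t7AY) (ev4 u0 u1 u2 u3 t7AZ) (ev4 u0 u1 u2 u3 t7AW) 4 1 0 := by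
  rw [ev4_eq_of_zr u0 u1 u2 u3 t7AP3_4_1_0 (add4 (add4 (mul4 t7AYP4 t7AP2_1_0) (mul4 t7AYP1 t7AP2_4_0)) (mul4 t7AYP0 t7AP2_4_1)) (by decide +kernel)]
  simp only [ev4_add, ev4_mul, t7AYP4_ev, t7AYP1_ev, t7AYP0_ev, t7AP2_1_0_ev, t7AP2_4_0_ev, t7AP2_4_1_ev, pm3]

def t7AP3_4_1_1 : P4 := [[],[[],[[],[],[],[],[2]],[[],[],[],[8]],[[],[],[12]],[[],[10]],[[4]]],[[[],[],[],[],[2]],[[],[],[],[16]],[[],[],[36]],[[],[40]],[[20]]],[[[],[],[],[8]],[[],[],[36]],[[],[60]],[[40]]],[[[],[],[12]],[[],[42]],[[42]]],[[[],[12]],[[24]]],[[[6]]]]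

theorem t7AP3_4_1_1_ev (u0 u1 u2 u3 : ℝ) : ev4 u0 u1 u2 u3 t7AP3_4_1_1 = pm3 (ev4 u0 u1 u2 u3 t7AY) (ev4 u0 u1 u2 u3 t7AZ) (ev4 u0 u1 u2 u3 t7AW) 4 1 1 := by
  rw [ev4_eq_of_zr u0 u1 u2 u3 t7AP3_4_1_1 (add4 (add4 (mul4 t7AYP4 t7AP2_1_1) (mul4 t7AYP1 t7AP2_4_1)) (mul4 t7AYP1 t7AP2_4_1)) (by decide +kernel)]
  simp only [ev4_add, ev4_mul, t7AYP4_ev, t7AYP1_ev, t7AYP1_ev, t7AP2_1_1_ev, t7AP2_4_1_ev, t7AP2_4_1_ev, pm3]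

def t7AP3_4_2_0 : P4 := [[[],[],[[],[],[],[],[1]],[[],[],[],[4]],[[],[],[7]],[[],[6]],[[2]]],[[],[[],[],[],[],[2]],[[],[],[],[12]],[[],[],[28]],[[],[30]],[[12]]],[[[],[],[],[],[2]],[[],[],[],[16]],[[],[],[48]],[[],[64]],[[32]]],[[[],[],[],[8]],[[],[],[40]],[[],[72]],[[48]]],[[[],[],[14]],[[],[44]],[[44]]],[[[],[12]],[[24]]],[[[6]]]]

theorem t7AP3_4_2_0_ev (u0 u1 u2 u3 : ℝ) : ev4 u0 u1 u2 u3 t7AP3_4_2_0 = pm3 (ev4 u0 u1 u2 u3 t7AY) (ev4 u0 u1 u2 u3 t7AZ) (ev4 u0 u1 u2 u3 t7AW) 4 2 0 := by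
  rw [ev4_eq_of_zr u0 u1 u2 u3 t7AP3_4_2_0 (add4 (add4 (mul4 t7AYP4 t7AP2_2_0) (mul4 t7AYP2 t7AP2_4_0)) (mul4 t7AYP0 t7AP2_4_2)) (by decide +kernel)]
  simp only [ev4_add, ev4_mul, t7AYP4_ev, t7AYP2_ev, t7AYP0_ev, t7AP2_2_0_ev, t7AP2_4_0_ev, t7AP2_4_2_ev, pm3]

def t7AP3_4_2_1 : P4 := [[],[[],[],[[],[],[],[],[1]],[[],[],[],[4]],[[],[],[7]],[[],[6]],[[2]]],[[],[[],[],[],[],[3]],[[],[],[],[16]],[[],[],[34]],[[],[35]],[[14]]],[[[],[],[],[],[2]],[[],[],[],[20]],[[],[],[60]],[[],[80]],[[40]]],[[[],[],[],[8]],[[],[],[47]],[[],[93]],[[62]]],[[[],[],[14]],[[],[56]],[[56]]],[[[],[14]],[[28]]],[[[6]]]]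

theorem t7AP3_4_2_1_ev (u0 u1 u2 u3 : ℝ) : ev4 u0 u1 u2 u3 t7AP3_4_2_1 = pm3 (ev4 u0 u1 u2 u3 t7AY) (ev4 u0 u1 u2 u3 t7AZ) (ev4 u0 u1 u2 u3 t7AW) 4 2 1 := by
  rw [ev4_eq_of_zr u0 u1 u2 u3 t7AP3_4_2_1 (add4 (add4 (mul4 t7AYP4 t7AP2_2_1) (mul4 t7AYP2 t7AP2_4_1)) (mul4 t7AYP1 t7AP2_4_2)) (by decide +kernel)]
  simp only [ev4_add, ev4_mul, t7AYP4_ev, t7AYP2_ev, t7AYP1_ev, t7AP2_2_1_ev, t7AP2_4_1_ev, t7AP2_4_2_ev, pm3]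

def t7AP3_4_3_0 : P4 := [[[],[],[],[[],[],[],[],[1]],[[],[],[],[5]],[[],[],[9]],[[],[7]],[[2]]],[[],[],[[],[],[],[],[3]],[[],[],[],[20]],[[],[],[45]],[[],[42]],[[14]]],[[],[[],[],[],[],[3]],[[],[],[],[30]],[[],[],[90]],[[],[105]],[[42]]],[[[],[],[],[],[2]],[[],[],[],[24]],[[],[],[96]],[[],[144]],[[72]]],[[[],[],[],[10]],[[],[],[60]],[[],[120]],[[80]]],[[[],[],[18]],[[],[60]],[[60]]],[[[],[14]],[[28]]],[[[6]]]]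

theorem t7AP3_4_3_0_ev (u0 u1 u2 u3 : ℝ) : ev4 u0 u1 u2 u3 t7AP3_4_3_0 = pm3 (ev4 u0 u1 u2 u3 t7AY) (ev4 u0 u1 u2 u3 t7AZ) (ev4 u0 u1 u2 u3 t7AW) 4 3 0 := by
  rw [ev4_eq_of_zr u0 u1 u2 u3 t7AP3_4_3_0 (add4 (add4 (mul4 t7AYP4 t7AP2_3_0) (mul4 t7AYP3 t7AP2_4_0)) (mul4 t7AYP0 t7AP2_4_3)) (by decide +kernel)]
  simp only [ev4_add, ev4_mul, t7AYP4_ev, t7AYP3_ev, t7AYP0_ev, t7AP2_3_0_ev, t7AP2_4_0_ev, t7AP2_4_3_ev, pm3]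

def t7AP3_5_0_0 : P4 := [[[[],[],[],[],[],[2]],[[],[],[],[],[10]],[[],[],[],[20]],[[],[],[20]],[[],[10]],[[4]]],[[[],[],[],[],[10]],[[],[],[],[40]],[[],[],[60]],[[],[40]],[[20]]],[[[],[],[],[20]],[[],[],[60]],[[],[60]],[[40]]],[[[],[],[20]],[[],[40]],[[40]]],[[[],[10]],[[20]]],[[[6]]]]

theorem t7AP3_5_0_0_ev (u0 u1 u2 u3 : ℝ) : ev4 u0 u1 u2 u3 t7AP3_5_0_0 = pm3 (ev4 u0 u1 u2 u3 t7AY) (ev4 u0 u1 u2 u3 t7AZ) (ev4 u0 u1 u2 u3 t7AW) 5 0 0 := by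
  rw [ev4_eq_of_zr u0 u1 u2 u3 t7AP3_5_0_0 (add4 (add4 (mul4 t7AYP5 t7AP2_0_0) (mul4 t7AYP0 t7AP2_5_0)) (mul4 t7AYP0 t7AP2_5_0)) (by decide +kernel)]
  simp only [ev4_add, ev4_mul, t7AYP5_ev, t7AYP0_ev, t7AYP0_ev, t7AP2_0_0_ev, t7AP2_5_0_ev, t7AP2_5_0_ev, pm3]

def t7AP3_5_1_0 : P4 := [[[],[[],[],[],[],[],[1]],[[],[],[],[],[5]],[[],[],[],[10]],[[],[],[10]],[[],[6]],[[2]]],[[[],[],[],[],[],[2]],[[],[],[],[],[15]],[[],[],[],[40]],[[],[],[50]],[[],[35]],[[14]]],[[[],[],[],[],[10]],[[],[],[],[50]],[[],[],[90]],[[],[80]],[[40]]],[[[],[],[],[20]],[[],[],[70]],[[],[90]],[[60]]],[[[],[],[20]],[[],[50]],[[50]]],[[[],[12]],[[24]]],[[[6]]]]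

theorem t7AP3_5_1_0_ev (u0 u1 u2 u3 : ℝ) : ev4 u0 u1 u2 u3 t7AP3_5_1_0 = pm3 (ev4 u0 u1 u2 u3 t7AY) (ev4 u0 u1 u2 u3 t7AZ) (ev4 u0 u1 u2 u3 t7AW) 5 1 0 := by
  rw [ev4_eq_of_zr u0 u1 u2 u3 t7AP3_5_1_0 (add4 (add4 (mul4 t7AYP5 t7AP2_1_0) (mul4 t7AYP1 t7AP2_5_0)) (mul4 t7AYP0 t7AP2_5_1)) (by decide +kernel)]
  simp only [ev4_add, ev4_mul, t7AYP5_ev, t7AYP1_ev, t7AYP0_ev, t7AP2_1_0_ev, t7AP2_5_0_ev, t7AP2_5_1_ev, pm3]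

def t7AP3_5_1_1 : P4 := [[],[[],[[],[],[],[],[],[2]],[[],[],[],[],[10]],[[],[],[],[20]],[[],[],[20]],[[],[12]],[[4]]],[[[],[],[],[],[],[2]],[[],[],[],[],[20]],[[],[],[],[60]],[[],[],[80]],[[],[60]],[[24]]],[[[],[],[],[],[10]],[[],[],[],[60]],[[],[],[120]],[[],[120]],[[60]]],[[[],[],[],[20]],[[],[],[80]],[[],[120]],[[80]]],[[[],[],[20]],[[],[62]],[[62]]],[[[],[14]],[[28]]],[[[6]]]]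

theorem t7AP3_5_1_1_ev (u0 u1 u2 u3 : ℝ) : ev4 u0 u1 u2 u3 t7AP3_5_1_1 = pm3 (ev4 u0 u1 u2 u3 t7AY) (ev4 u0 u1 u2 u3 t7AZ) (ev4 u0 u1 u2 u3 t7AW) 5 1 1 := by
  rw [ev4_eq_of_zr u0 u1 u2 u3 t7AP3_5_1_1 (add4 (add4 (mul4 t7AYP5 t7AP2_1_1) (mul4 t7AYP1 t7AP2_5_1)) (mul4 t7AYP1 t7AP2_5_1)) (by decide +kernel)]
  simp only [ev4_add, ev4_mul, t7AYP5_ev, t7AYP1_ev, t7AYP1_ev, t7AP2_1_1_ev, t7AP2_5_1_ev, t7AP2_5_1_ev, pm3]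

def t7AP3_5_2_0 : P4 := [[[],[],[[],[],[],[],[],[1]],[[],[],[],[],[5]],[[],[],[],[10]],[[],[],[11]],[[],[7]],[[2]]],[[],[[],[],[],[],[],[2]],[[],[],[],[],[15]],[[],[],[],[40]],[[],[],[55]],[[],[42]],[[14]]],[[[],[],[],[],[],[2]],[[],[],[],[],[20]],[[],[],[],[70]],[[],[],[120]],[[],[110]],[[44]]],[[[],[],[],[],[10]],[[],[],[],[60]],[[],[],[140]],[[],[160]],[[80]]],[[[],[],[],[20]],[[],[],[85]],[[],[135]],[[90]]],[[[],[],[22]],[[],[64]],[[64]]],[[[],[14]],[[28]]],[[[6]]]]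

theorem t7AP3_5_2_0_ev (u0 u1 u2 u3 : ℝ) : ev4 u0 u1 u2 u3 t7AP3_5_2_0 = pm3 (ev4 u0 u1 u2 u3 t7AY) (ev4 u0 u1 u2 u3 t7AZ) (ev4 u0 u1 u2 u3 t7AW) 5 2 0 := by
  rw [ev4_eq_of_zr u0 u1 u2 u3 t7AP3_5_2_0 (add4 (add4 (mul4 t7AYP5 t7AP2_2_0) (mul4 t7AYP2 t7AP2_5_0)) (mul4 t7AYP0 t7AP2_5_2)) (by decide +kernel)]
  simp only [ev4_add, ev4_mul, t7AYP5_ev, t7AYP2_ev, t7AYP0_ev, t7AP2_2_0_ev, t7AP2_5_0_ev, t7AP2_5_2_ev, pm3]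

def t7AP3_6_0_0 : P4 := [[[[],[],[],[],[],[],[2]],[[],[],[],[],[],[12]],[[],[],[],[],[30]],[[],[],[],[40]],[[],[],[30]],[[],[12]],[[4]]],[[[],[],[],[],[],[12]],[[],[],[],[],[60]],[[],[],[],[120]],[[],[],[120]],[[],[60]],[[24]]],[[[],[],[],[],[30]],[[],[],[],[120]],[[],[],[180]],[[],[120]],[[60]]],[[[],[],[],[40]],[[],[],[120]],[[],[120]],[[80]]],[[[],[],[30]],[[],[60]],[[60]]],[[[],[12]],[[24]]],[[[6]]]]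

theorem t7AP3_6_0_0_ev (u0 u1 u2 u3 : ℝ) : ev4 u0 u1 u2 u3 t7AP3_6_0_0 = pm3 (ev4 u0 u1 u2 u3 t7AY) (ev4 u0 u1 u2 u3 t7AZ) (ev4 u0 u1 u2 u3 t7AW) 6 0 0 := by
  rw [ev4_eq_of_zr u0 u1 u2 u3 t7AP3_6_0_0 (add4 (add4 (mul4 t7AYP6 t7AP2_0_0) (mul4 t7AYP0 t7AP2_6_0)) (mul4 t7AYP0 t7AP2_6_0)) (by decide +kernel)]
  simp only [ev4_add, ev4_mul, t7AYP6_ev, t7AYP0_ev, t7AYP0_ev, t7AP2_0_0_ev, t7AP2_6_0_ev, t7AP2_6_0_ev, pm3]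

def t7AP3_6_1_0 : P4 := [[[],[[],[],[],[],[],[],[1]],[[],[],[],[],[],[6]],[[],[],[],[],[15]],[[],[],[],[20]],[[],[],[15]],[[],[7]],[[2]]],[[[],[],[],[],[],[],[2]],[[],[],[],[],[],[18]],[[],[],[],[],[60]],[[],[],[],[100]],[[],[],[90]],[[],[48]],[[16]]],[[[],[],[],[],[],[12]],[[],[],[],[],[75]],[[],[],[],[180]],[[],[],[210]],[[],[135]],[[54]]],[[[],[],[],[],[30]],[[],[],[],[140]],[[],[],[240]],[[],[200]],[[100]]],[[[],[],[],[40]],[[],[],[135]],[[],[165]],[[110]]],[[[],[],[30]],[[],[72]],[[72]]],[[[],[14]],[[28]]],[[[6]]]]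

theorem t7AP3_6_1_0_ev (u0 u1 u2 u3 : ℝ) : ev4 u0 u1 u2 u3 t7AP3_6_1_0 = pm3 (ev4 u0 u1 u2 u3 t7AY) (ev4 u0 u1 u2 u3 t7AZ) (ev4 u0 u1 u2 u3 t7AW) 6 1 0 := by
  rw [ev4_eq_of_zr u0 u1 u2 u3 t7AP3_6_1_0 (add4 (add4 (mul4 t7AYP6 t7AP2_1_0) (mul4 t7AYP1 t7AP2_6_0)) (mul4 t7AYP0 t7AP2_6_1)) (by decide +kernel)]
  simp only [ev4_add, ev4_mul, t7AYP6_ev, t7AYP1_ev, t7AYP0_ev, t7AP2_1_0_ev, t7AP2_6_0_ev, t7AP2_6_1_ev, pm3]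

def t7AP3_7_0_0 : P4 := [[[[],[],[],[],[],[],[],[2]],[[],[],[],[],[],[],[14]],[[],[],[],[],[],[42]],[[],[],[],[],[70]],[[],[],[],[70]],[[],[],[42]],[[],[14]],[[4]]],[[[],[],[],[],[],[],[14]],[[],[],[],[],[],[84]],[[],[],[],[],[210]],[[],[],[],[280]],[[],[],[210]],[[],[84]],[[28]]],[[[],[],[],[],[],[42]],[[],[],[],[],[210]],[[],[],[],[420]],[[],[],[420]],[[],[210]],[[84]]],[[[],[],[],[],[70]],[[],[],[],[280]],[[],[],[420]],[[],[280]],[[140]]],[[[],[],[],[70]],[[],[],[210]],[[],[210]],[[140]]],[[[],[],[42]],[[],[84]],[[84]]],[[[],[14]],[[28]]],[[[6]]]]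

theorem t7AP3_7_0_0_ev (u0 u1 u2 u3 : ℝ) : ev4 u0 u1 u2 u3 t7AP3_7_0_0 = pm3 (ev4 u0 u1 u2 u3 t7AY) (ev4 u0 u1 u2 u3 t7AZ) (ev4 u0 u1 u2 u3 t7AW) 7 0 0 := by
  rw [ev4_eq_of_zr u0 u1 u2 u3 t7AP3_7_0_0 (add4 (add4 (mul4 t7AYP7 t7AP2_0_0) (mul4 t7AYP0 t7AP2_7_0)) (mul4 t7AYP0 t7AP2_7_0)) (by decide +kernel)]
  simp only [ev4_add, ev4_mul, t7AYP7_ev, t7AYP0_ev, t7AYP0_ev, t7AP2_0_0_ev, t7AP2_7_0_ev, t7AP2_7_0_ev, pm3]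

end Vale.Agent.P154
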