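import Vale.Agent.P154.R4.T7.Ms

namespace Vale.Agent.P154

set_option maxRecDepth 1000000
set_option maxHeartbeats 4000000

def t7AX : P4 := lin4 1 1 1 1 0

theorem t7AX_ev (u0 u1 u2 u3 : ℝ) : ev4 u0 u1 u2 u3 t7AX = u0 + u1 + u2 + u3 := by
  rw [t7AX, ev4_lin]; push_cast; ring

def t7AXP0 : P4 := [[[[1]]]]

theorem t7AXP0_ev (u0 u1 u2 u3 : ℝ) : ev4 u0 u1 u2 u3 t7AXP0 = ev4 u0 u1 u2 u3 t7AX ^ 0 := by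
  simp [t7AXP0, ev4, ev3, ev2, ev1, evL]

def t7AXP1 : P4 := [[[[0,1],[1]],[[1]]],[[[1]]]]

theorem t7AXP1_ev (u0 u1 u2 u3 : ℝ) : ev4 u0 u1 u2 u3 t7AXP1 = ev4 u0 u1 u2 u3 t7AX ^ 1 := by
  rw [ev4_eq_of_zr u0 u1 u2 u3 t7AXP1 (mul4 t7AXP0 t7AX) (by decide +kernel), ev4_mul, t7AXP0_ev]; ring

def t7AXP2 : P4 := [[[[0,0,1],[0,2],[1]],[[0,2],[2]],[[1]]],[[[0,2],[2]],[[2]]],[[[1]]]]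

theorem t7AXP2_ev (u0 u1 u2 u3 : ℝ) : ev4 u0 u1 u2 u3 t7AXP2 = ev4 u0 u1 u2 u3 t7AX ^ 2 := by
  rw [ev4_eq_of_zr u0 u1 u2 u3 t7AXP2 (mul4 t7AXP1 t7AX) (by decide +kernel), ev4_mul, t7AXP1_ev]; ring

def t7AXP3 : P4 := [[[[0,0,0,1],[0,0,3],[0,3],[1]],[[0,0,3],[0,6],[3]],[[0,3],[3]],[[1]]],[[[0,0,3],[0,6],[3]],[[0,6],[6]],[[3]]],[[[0,3],[3]],[[3]]],[[[1]]]]

theorem t7AXP3_ev (u0 u1 u2 u3 : ℝ) : ev4 u0 u1 u2 u3 t7AXP3 = ev4 u0 u1 u2 u3 t7AX ^ 3 := by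
  rw [ev4_eq_of_zr u0 u1 u2 u3 t7AXP3 (mul4 t7AXP2 t7AX) (by decide +kernel), ev4_mul, t7AXP2_ev]; ring

def t7AXP4 : P4 := [[[[0,0,0,0,1],[0,0,0,4],[0,0,6],[0,4],[1]],[[0,0,0,4],[0,0,12],[0,12],[4]],[[0,0,6],[0,12],[6]],[[0,4],[4]],[[1]]],[[[0,0,0,4],[0,0,12],[0,12],[4]],[[0,0,12],[0,24],[12]],[[0,12],[12]],[[4]]],[[[0,0,6],[0,12],[6]],[[0,12],[12]],[[6]]],[[[0,4],[4]],[[4]]],[[[1]]]]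

theorem t7AXP4_ev (u0 u1 u2 u3 : ℝ) : ev4 u0 u1 u2 u3 t7AXP4 = ev4 u0 u1 u2 u3 t7AX ^ 4 := by
  rw [ev4_eq_of_zr u0 u1 u2 u3 t7AXP4 (mul4 t7AXP3 t7AX) (by decide +kernel), ev4_mul, t7AXP3_ev]; ring

def t7AXP5 : P4 := [[[[0,0,0,0,0,1],[0,0,0,0,5],[0,0,0,10],[0,0,10],[0,5],[1]],[[0,0,0,0,5],[0,0,0,20],[0,0,30],[0,20],[5]],[[0,0,0,10],[0,0,30],[0,30],[10]],[[0,0,10],[0,20],[10]],[[0,5],[5]],[[1]]],[[[0,0,0,0,5],[0,0,0,20],[0,0,30],[0,20],[5]],[[0,0,0,20],[0,0,60],[0,60],[20]],[[0,0,30],[0,60],[30]],[[0,20],[20]],[[5]]],[[[0,0,0,10],[0,0,30],[0,30],[10]],[[0,0,30],[0,60],[30]],[[0,30],[30]],[[10]]],[[[0,0,10],[0,20],[10]],[[0,20],[20]],[[10]]],[[[0,5],[5]],[[5]]],[[[1]]]]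

theorem t7AXP5_ev (u0 u1 u2 u3 : ℝ) : ev4 u0 u1 u2 u3 t7AXP5 = ev4 u0 u1 u2 u3 t7AX ^ 5 := by
  rw [ev4_eq_of_zr u0 u1 u2 u3 t7AXP5 (mul4 t7AXP4 t7AX) (by decide +kernel), ev4_mul, t7AXP4_ev]; ring

def t7AXP6 : P4 := [[[[0,0,0,0,0,0,1],[0,0,0,0,0,6],[0,0,0,0,15],[0,0,0,20],[0,0,15],[0,6],[1]],[[0,0,0,0,0,6],[0,0,0,0,30],[0,0,0,60],[0,0,60],[0,30],[6]],[[0,0,0,0,15],[0,0,0,60],[0,0,90],[0,60],[15]],[[0,0,0,20],[0,0,60],[0,60],[20]],[[0,0,15],[0,30],[15]],[[0,6],[6]],[[1]]],[[[0,0,0,0,0,6],[0,0,0,0,30],[0,0,0,60],[0,0,60],[0,30],[6]],[[0,0,0,0,30],[0,0,0,120],[0,0,180],[0,120],[30]],[[0,0,0,60],[0,0,180],[0,180],[60]],[[0,0,60],[0,120],[60]],[[0,30],[30]],[[6]]],[[[0,0,0,0,15],[0,0,0,60],[0,0,90],[0,60],[15]],[[0,0,0,60],[0,0,180],[0,180],[60]],[[0,0,90],[0,180],[90]],[[0,60],[60]],[[15]]],[[[0,0,0,20],[0,0,60],[0,60],[20]],[[0,0,60],[0,120],[60]],[[0,60],[60]],[[20]]],[[[0,0,15],[0,30],[15]],[[0,30],[30]],[[15]]],[[[0,6],[6]],[[6]]],[[[1]]]]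

theorem t7AXP6_ev (u0 u1 u2 u3 : ℝ) : ev4 u0 u1 u2 u3 t7AXP6 = ev4 u0 u1 u2 u3 t7AX ^ 6 := by
  rw [ev4_eq_of_zr u0 u1 u2 u3 t7AXP6 (mul4 t7AXP5 t7AX) (by decide +kernel), ev4_mul, t7AXP5_ev]; ring

def t7AXP7 : P4 := [[[[0,0,0,0,0,0,0,1],[0,0,0,0,0,0,7],[0,0,0,0,0,21],[0,0,0,0,35],[0,0,0,35],[0,0,21],[0,7],[1]],[[0,0,0,0,0,0,7],[0,0,0,0,0,42],[0,0,0,0,105],[0,0,0,140],[0,0,105],[0,42],[7]],[[0,0,0,0,0,21],[0,0,0,0,105],[0,0,0,210],[0,0,210],[0,105],[21]],[[0,0,0,0,35],[0,0,0,140],[0,0,210],[0,140],[35]],[[0,0,0,35],[0,0,105],[0,105],[35]],[[0,0,21],[0,42],[21]],[[0,7],[7]],[[1]]],[[[0,0,0,0,0,0,7],[0,0,0,0,0,42],[0,0,0,0,105],[0,0,0,140],[0,0,105],[0,42],[7]],[[0,0,0,0,0,42],[0,0,0,0,210],[0,0,0,420],[0,0,420],[0,210],[42]],[[0,0,0,0,105],[0,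0,0,420],[0,0,630],[0,420],[105]],[[0,0,0,140],[0,0,420],[0,420],[140]],[[0,0,105],[0,210],[105]],[[0,42],[42]],[[7]]],[[[0,0,0,0,0,21],[0,0,0,0,105],[0,0,0,210],[0,0,210],[0,105],[21]],[[0,0,0,0,105],[0,0,0,420],[0,0,630],[0,420],[105]],[[0,0,0,210],[0,0,630],[0,630],[210]],[[0,0,210],[0,420],[210]],[[0,105],[105]],[[21]]],[[[0,0,0,0,35],[0,0,0,140],[0,0,210],[0,140],[35]],[[0,0,0,140],[0,0,420],[0,420],[140]],[[0,0,210],[0,420],[210]],[[0,140],[140]],[[35]]],[[[0,0,0,35],[0,0,105],[0,105],[35]],[[0,0,105],[0,210],[105]],[[0,105],[105]],[[35]]],[[[0,0,21],[0,42],[21]],[[0,42],[42]],[[21]]],[[[0,7],[7]],[[7]]],[[[1]]]]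

theorem t7AXP7_ev (u0 u1 u2 u3 : ℝ) : ev4 u0 u1 u2 u3 t7AXP7 = ev4 u0 u1 u2 u3 t7AX ^ 7 := by
  rw [ev4_eq_of_zr u0 u1 u2 u3 t7AXP7 (mul4 t7AXP6 t7AX) (by decide +kernel), ev4_mul, t7AXP6_ev]; ring

def t7AY : P4 := lin4 1 1 1 0 0

theorem t7AY_ev (u0 u1 u2 u3 : ℝ) : ev4 u0 u1 u2 u3 t7AY = u0 + u1 + u2 := by
  rw [t7AY, ev4_lin]; push_cast; ring

def t7AYP0 : P4 := [[[[1]]]]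

theorem t7AYP0_ev (u0 u1 u2 u3 : ℝ) : ev4 u0 u1 u2 u3 t7AYP0 = ev4 u0 u1 u2 u3 t7AY ^ 0 := by
  simp [t7AYP0, ev4, ev3, ev2, ev1, evL]

def t7AYP1 : P4 := [[[[],[1]],[[1]]],[[[1]]]]

theorem t7AYP1_ev (u0 u1 u2 u3 : ℝ) : ev4 u0 u1 u2 u3 t7AYP1 = ev4 u0 u1 u2 u3 t7AY ^ 1 := by
  rw [ev4_eq_of_zr u0 u1 u2 u3 t7AYP1 (mul4 t7AYP0 t7AY) (by decide +kernel), ev4_mul, t7AYP0_ev]; ring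

def t7AYP2 : P4 := [[[[],[],[1]],[[],[2]],[[1]]],[[[],[2]],[[2]]],[[[1]]]]

theorem t7AYP2_ev (u0 u1 u2 u3 : ℝ) : ev4 u0 u1 u2 u3 t7AYP2 = ev4 u0 u1 u2 u3 t7AY ^ 2 := by
  rw [ev4_eq_of_zr u0 u1 u2 u3 t7AYP2 (mul4 t7AYP1 t7AY) (by decide +kernel), ev4_mul, t7AYP1_ev]; ring

def t7AYP3 : P4 := [[[[],[],[],[1]],[[],[],[3]],[[],[3]],[[1]]],[[[],[],[3]],[[],[6]],[[3]]],[[[],[3]],[[3]]],[[[1]]]]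

theorem t7AYP3_ev (u0 u1 u2 u3 : ℝ) : ev4 u0 u1 u2 u3 t7AYP3 = ev4 u0 u1 u2 u3 t7AY ^ 3 := by
  rw [ev4_eq_of_zr u0 u1 u2 u3 t7AYP3 (mul4 t7AYP2 t7AY) (by decide +kernel), ev4_mul, t7AYP2_ev]; ring

def t7AYP4 : P4 := [[[[],[],[],[],[1]],[[],[],[],[4]],[[],[],[6]],[[],[4]],[[1]]],[[[],[],[],[4]],[[],[],[12]],[[],[12]],[[4]]],[[[],[],[6]],[[],[12]],[[6]]],[[[],[4]],[[4]]],[[[1]]]]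

theorem t7AYP4_ev (u0 u1 u2 u3 : ℝ) : ev4 u0 u1 u2 u3 t7AYP4 = ev4 u0 u1 u2 u3 t7AY ^ 4 := by
  rw [ev4_eq_of_zr u0 u1 u2 u3 t7AYP4 (mul4 t7AYP3 t7AY) (by decide +kernel), ev4_mul, t7AYP3_ev]; ring

def t7AYP5 : P4 := [[[[],[],[],[],[],[1]],[[],[],[],[],[5]],[[],[],[],[10]],[[],[],[10]],[[],[5]],[[1]]],[[[],[],[],[],[5]],[[],[],[],[20]],[[],[],[30]],[[],[20]],[[5]]],[[[],[],[],[10]],[[],[],[30]],[[],[30]],[[10]]],[[[],[],[10]],[[],[20]],[[10]]],[[[],[5]],[[5]]],[[[1]]]]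

theorem t7AYP5_ev (u0 u1 u2 u3 : ℝ) : ev4 u0 u1 u2 u3 t7AYP5 = ev4 u0 u1 u2 u3 t7AY ^ 5 := by
  rw [ev4_eq_of_zr u0 u1 u2 u3 t7AYP5 (mul4 t7AYP4 t7AY) (by decide +kernel), ev4_mul, t7AYP4_ev]; ring

def t7AYP6 : P4 := [[[[],[],[],[],[],[],[1]],[[],[],[],[],[],[6]],[[],[],[],[],[15]],[[],[],[],[20]],[[],[],[15]],[[],[6]],[[1]]],[[[],[],[],[],[],[6]],[[],[],[],[],[30]],[[],[],[],[60]],[[],[],[60]],[[],[30]],[[6]]],[[[],[],[],[],[15]],[[],[],[],[60]],[[],[],[90]],[[],[60]],[[15]]],[[[],[],[],[20]],[[],[],[60]],[[],[60]],[[20]]],[[[],[],[15]],[[],[30]],[[15]]],[[[],[6]],[[6]]],[[[1]]]]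

theorem t7AYP6_ev (u0 u1 u2 u3 : ℝ) : ev4 u0 u1 u2 u3 t7AYP6 = ev4 u0 u1 u2 u3 t7AY ^ 6 := by
  rw [ev4_eq_of_zr u0 u1 u2 u3 t7AYP6 (mul4 t7AYP5 t7AY) (by decide +kernel), ev4_mul, t7AYP5_ev]; ring

def t7AYP7 : P4 := [[[[],[],[],[],[],[],[],[1]],[[],[],[],[],[],[],[7]],[[],[],[],[],[],[21]],[[],[],[],[],[35]],[[],[],[],[35]],[[],[],[21]],[[],[7]],[[1]]],[[[],[],[],[],[],[],[7]],[[],[],[],[],[],[42]],[[],[],[],[],[105]],[[],[],[],[140]],[[],[],[105]],[[],[42]],[[7]]],[[[],[],[],[],[],[21]],[[],[],[],[],[105]],[[],[],[],[210]],[[],[],[210]],[[],[105]],[[21]]],[[[],[],[],[],[35]],[[],[],[],[140]],[[],[],[210]],[[],[140]],[[35]]],[[[],[],[],[35]],[[],[],[105]],[[],[105]],[[35]]],[[[],[],[21]],[[],[42]],[[21]]],[[[],[7]],[[7]]],[[[1]]]]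

theorem t7AYP7_ev (u0 u1 u2 u3 : ℝ) : ev4 u0 u1 u2 u3 t7AYP7 = ev4 u0 u1 u2 u3 t7AY ^ 7 := by
  rw [ev4_eq_of_zr u0 u1 u2 u3 t7AYP7 (mul4 t7AYP6 t7AY) (by decide +kernel), ev4_mul, t7AYP6_ev]; ring

def t7AZ : P4 := lin4 1 1 0 0 0

theorem t7AZ_ev (u0 u1 u2 u3 : ℝ) : ev4 u0 u1 u2 u3 t7AZ = u0 + u1 := by
  rw [t7AZ, ev4_lin]; push_cast; ring

def t7AZP0 : P4 := [[[[1]]]]

theorem t7AZP0_ev (u0 u1 u2 u3 : ℝ) : ev4 u0 u1 u2 u3 t7AZP0 = ev4 u0 u1 u2 u3 t7AZ ^ 0 := by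
  simp [t7AZP0, ev4, ev3, ev2, ev1, evL]

def t7AZP1 : P4 := [[[],[[1]]],[[[1]]]]

theorem t7AZP1_ev (u0 u1 u2 u3 : ℝ) : ev4 u0 u1 u2 u3 t7AZP1 = ev4 u0 u1 u2 u3 t7AZ ^ 1 := by
  rw [ev4_eq_of_zr u0 u1 u2 u3 t7AZP1 (mul4 t7AZP0 t7AZ) (by decide +kernel), ev4_mul, t7AZP0_ev]; ring

def t7AZP2 : P4 := [[[],[],[[1]]],[[],[[2]]],[[[1]]]]

theorem t7AZP2_ev (u0 u1 u2 u3 : ℝ) : ev4 u0 u1 u2 u3 t7AZP2 = ev4 u0 u1 u2 u3 t7AZ ^ 2 := by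
  rw [ev4_eq_of_zr u0 u1 u2 u3 t7AZP2 (mul4 t7AZP1 t7AZ) (by decide +kernel), ev4_mul, t7AZP1_ev]; ring

def t7AZP3 : P4 := [[[],[],[],[[1]]],[[],[],[[3]]],[[],[[3]]],[[[1]]]]

theorem t7AZP3_ev (u0 u1 u2 u3 : ℝ) : ev4 u0 u1 u2 u3 t7AZP3 = ev4 u0 u1 u2 u3 t7AZ ^ 3 := by
  rw [ev4_eq_of_zr u0 u1 u2 u3 t7AZP3 (mul4 t7AZP2 t7AZ) (by decide +kernel), ev4_mul, t7AZP2_ev]; ring

def t7AZP4 : P4 := [[[],[],[],[],[[1]]],[[],[],[],[[4]]],[[],[],[[6]]],[[],[[4]]],[[[1]]]]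

theorem t7AZP4_ev (u0 u1 u2 u3 : ℝ) : ev4 u0 u1 u2 u3 t7AZP4 = ev4 u0 u1 u2 u3 t7AZ ^ 4 := by
  rw [ev4_eq_of_zr u0 u1 u2 u3 t7AZP4 (mul4 t7AZP3 t7AZ) (by decide +kernel), ev4_mul, t7AZP3_ev]; ring

def t7AZP5 : P4 := [[[],[],[],[],[],[[1]]],[[],[],[],[],[[5]]],[[],[],[],[[10]]],[[],[],[[10]]],[[],[[5]]],[[[1]]]]

theorem t7AZP5_ev (u0 u1 u2 u3 : ℝ) : ev4 u0 u1 u2 u3 t7AZP5 = ev4 u0 u1 u2 u3 t7AZ ^ 5 := by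
  rw [ev4_eq_of_zr u0 u1 u2 u3 t7AZP5 (mul4 t7AZP4 t7AZ) (by decide +kernel), ev4_mul, t7AZP4_ev]; ring

def t7AZP6 : P4 := [[[],[],[],[],[],[],[[1]]],[[],[],[],[],[],[[6]]],[[],[],[],[],[[15]]],[[],[],[],[[20]]],[[],[],[[15]]],[[],[[6]]],[[[1]]]]

theorem t7AZP6_ev (u0 u1 u2 u3 : ℝ) : ev4 u0 u1 u2 u3 t7AZP6 = ev4 u0 u1 u2 u3 t7AZ ^ 6 := by
  rw [ev4_eq_of_zr u0 u1 u2 u3 t7AZP6 (mul4 t7AZP5 t7AZ) (by decide +kernel), ev4_mul, t7AZP5_ev]; ring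

def t7AZP7 : P4 := [[[],[],[],[],[],[],[],[[1]]],[[],[],[],[],[],[],[[7]]],[[],[],[],[],[],[[21]]],[[],[],[],[],[[35]]],[[],[],[],[[35]]],[[],[],[[21]]],[[],[[7]]],[[[1]]]]

theorem t7AZP7_ev (u0 u1 u2 u3 : ℝ) : ev4 u0 u1 u2 u3 t7AZP7 = ev4 u0 u1 u2 u3 t7AZ ^ 7 := by
  rw [ev4_eq_of_zr u0 u1 u2 u3 t7AZP7 (mul4 t7AZP6 t7AZ) (by decide +kernel), ev4_mul, t7AZP6_ev]; ring

def t7AW : P4 := lin4 1 0 0 0 0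

theorem t7AW_ev (u0 u1 u2 u3 : ℝ) : ev4 u0 u1 u2 u3 t7AW = u0 := by
  rw [t7AW, ev4_lin]; push_cast; ring

def t7AWP0 : P4 := [[[[1]]]]

theorem t7AWP0_ev (u0 u1 u2 u3 : ℝ) : ev4 u0 u1 u2 u3 t7AWP0 = ev4 u0 u1 u2 u3 t7AW ^ 0 := by
  simp [t7AWP0, ev4, ev3, ev2, ev1, evL]

def t7AWP1 : P4 := [[],[[[1]]]]

theorem t7AWP1_ev (u0 u1 u2 u3 : ℝ) : ev4 u0 u1 u2 u3 t7AWP1 = ev4 u0 u1 u2 u3 t7AW ^ 1 := by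
  rw [ev4_eq_of_zr u0 u1 u2 u3 t7AWP1 (mul4 t7AWP0 t7AW) (by decide +kernel), ev4_mul, t7AWP0_ev]; ring

def t7AWP2 : P4 := [[],[],[[[1]]]]

theorem t7AWP2_ev (u0 u1 u2 u3 : ℝ) : ev4 u0 u1 u2 u3 t7AWP2 = ev4 u0 u1 u2 u3 t7AW ^ 2 := by
  rw [ev4_eq_of_zr u0 u1 u2 u3 t7AWP2 (mul4 t7AWP1 t7AW) (by decide +kernel), ev4_mul, t7AWP1_ev]; ring

def t7AWP3 : P4 := [[],[],[],[[[1]]]]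

theorem t7AWP3_ev (u0 u1 u2 u3 : ℝ) : ev4 u0 u1 u2 u3 t7AWP3 = ev4 u0 u1 u2 u3 t7AW ^ 3 := by
  rw [ev4_eq_of_zr u0 u1 u2 u3 t7AWP3 (mul4 t7AWP2 t7AW) (by decide +kernel), ev4_mul, t7AWP2_ev]; ring

def t7AWP4 : P4 := [[],[],[],[],[[[1]]]]

theorem t7AWP4_ev (u0 u1 u2 u3 : ℝ) : ev4 u0 u1 u2 u3 t7AWP4 = ev4 u0 u1 u2 u3 t7AW ^ 4 := by
  rw [ev4_eq_of_zr u0 u1 u2 u3 t7AWP4 (mul4 t7AWP3 t7AW) (by decide +kernel), ev4_mul, t7AWP3_ev]; ring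

def t7AWP5 : P4 := [[],[],[],[],[],[[[1]]]]

theorem t7AWP5_ev (u0 u1 u2 u3 : ℝ) : ev4 u0 u1 u2 u3 t7AWP5 = ev4 u0 u1 u2 u3 t7AW ^ 5 := by
  rw [ev4_eq_of_zr u0 u1 u2 u3 t7AWP5 (mul4 t7AWP4 t7AW) (by decide +kernel), ev4_mul, t7AWP4_ev]; ring

def t7AWP6 : P4 := [[],[],[],[],[],[],[[[1]]]]

theorem t7AWP6_ev (u0 u1 u2 u3 : ℝ) : ev4 u0 u1 u2 u3 t7AWP6 = ev4 u0 u1 u2 u3 t7AW ^ 6 := by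
  rw [ev4_eq_of_zr u0 u1 u2 u3 t7AWP6 (mul4 t7AWP5 t7AW) (by decide +kernel), ev4_mul, t7AWP5_ev]; ring

def t7AWP7 : P4 := [[],[],[],[],[],[],[],[[[1]]]]

theorem t7AWP7_ev (u0 u1 u2 u3 : ℝ) : ev4 u0 u1 u2 u3 t7AWP7 = ev4 u0 u1 u2 u3 t7AW ^ 7 := by
  rw [ev4_eq_of_zr u0 u1 u2 u3 t7AWP7 (mul4 t7AWP6 t7AW) (by decide +kernel), ev4_mul, t7AWP6_ev]; ring

end Vale.Agent.P154
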