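import Vale.Agent.P154.R4.T7.BPow

namespace Vale.Agent.P154

set_option maxRecDepth 1000000
set_option maxHeartbeats 4000000

def t7BP2_0_0 : P4 := [[[[2]]]]

theorem t7BP2_0_0_ev (u0 u1 u2 u3 : ℝ) : ev4 u0 u1 u2 u3 t7BP2_0_0 = pm2 (ev4 u0 u1 u2 u3 t7BZ) (ev4 u0 u1 u2 u3 t7BW) 0 0 := by
  rw [ev4_eq_of_zr u0 u1 u2 u3 t7BP2_0_0 (add4 (mul4 t7BZP0 t7BWP0) (mul4 t7BZP0 t7BWP0)) (by decide +kernel)]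
  simp only [ev4_add, ev4_mul, t7BZP0_ev, t7BWP0_ev, t7BZP0_ev, t7BWP0_ev, pm2]

def t7BP2_1_0 : P4 := [[[],[[6]]],[[[2]]]]

theorem t7BP2_1_0_ev (u0 u1 u2 u3 : ℝ) : ev4 u0 u1 u2 u3 t7BP2_1_0 = pm2 (ev4 u0 u1 u2 u3 t7BZ) (ev4 u0 u1 u2 u3 t7BW) 1 0 := by
  rw [ev4_eq_of_zr u0 u1 u2 u3 t7BP2_1_0 (add4 (mul4 t7BZP1 t7BWP0) (mul4 t7BZP0 t7BWP1)) (by decide +kernel)]
  simp only [ev4_add, ev4_mul, t7BZP1_ev, t7BWP0_ev, t7BZP0_ev, t7BWP1_ev, pm2]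

def t7BP2_1_1 : P4 := [[],[[],[[12]]],[[[2]]]]

theorem t7BP2_1_1_ev (u0 u1 u2 u3 : ℝ) : ev4 u0 u1 u2 u3 t7BP2_1_1 = pm2 (ev4 u0 u1 u2 u3 t7BZ) (ev4 u0 u1 u2 u3 t7BW) 1 1 := by
  rw [ev4_eq_of_zr u0 u1 u2 u3 t7BP2_1_1 (add4 (mul4 t7BZP1 t7BWP1) (mul4 t7BZP1 t7BWP1)) (by decide +kernel)]
  simp only [ev4_add, ev4_mul, t7BZP1_ev, t7BWP1_ev, t7BZP1_ev, t7BWP1_ev, pm2]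

def t7BP2_2_0 : P4 := [[[],[],[[36]]],[[],[[12]]],[[[2]]]]

theorem t7BP2_2_0_ev (u0 u1 u2 u3 : ℝ) : ev4 u0 u1 u2 u3 t7BP2_2_0 = pm2 (ev4 u0 u1 u2 u3 t7BZ) (ev4 u0 u1 u2 u3 t7BW) 2 0 := by
  rw [ev4_eq_of_zr u0 u1 u2 u3 t7BP2_2_0 (add4 (mul4 t7BZP2 t7BWP0) (mul4 t7BZP0 t7BWP2)) (by decide +kernel)]
  simp only [ev4_add, ev4_mul, t7BZP2_ev, t7BWP0_ev, t7BZP0_ev, t7BWP2_ev, pm2]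

def t7BP2_2_1 : P4 := [[],[[],[],[[36]]],[[],[[18]]],[[[2]]]]

theorem t7BP2_2_1_ev (u0 u1 u2 u3 : ℝ) : ev4 u0 u1 u2 u3 t7BP2_2_1 = pm2 (ev4 u0 u1 u2 u3 t7BZ) (ev4 u0 u1 u2 u3 t7BW) 2 1 := by
  rw [ev4_eq_of_zr u0 u1 u2 u3 t7BP2_2_1 (add4 (mul4 t7BZP2 t7BWP1) (mul4 t7BZP1 t7BWP2)) (by decide +kernel)]
  simp only [ev4_add, ev4_mul, t7BZP2_ev, t7BWP1_ev, t7BZP1_ev, t7BWP2_ev, pm2]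

def t7BP2_2_2 : P4 := [[],[],[[],[],[[72]]],[[],[[24]]],[[[2]]]]

theorem t7BP2_2_2_ev (u0 u1 u2 u3 : ℝ) : ev4 u0 u1 u2 u3 t7BP2_2_2 = pm2 (ev4 u0 u1 u2 u3 t7BZ) (ev4 u0 u1 u2 u3 t7BW) 2 2 := by
  rw [ev4_eq_of_zr u0 u1 u2 u3 t7BP2_2_2 (add4 (mul4 t7BZP2 t7BWP2) (mul4 t7BZP2 t7BWP2)) (by decide +kernel)]
  simp only [ev4_add, ev4_mul, t7BZP2_ev, t7BWP2_ev, t7BZP2_ev, t7BWP2_ev, pm2]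

def t7BP2_3_0 : P4 := [[[],[],[],[[216]]],[[],[],[[108]]],[[],[[18]]],[[[2]]]]

theorem t7BP2_3_0_ev (u0 u1 u2 u3 : ℝ) : ev4 u0 u1 u2 u3 t7BP2_3_0 = pm2 (ev4 u0 u1 u2 u3 t7BZ) (ev4 u0 u1 u2 u3 t7BW) 3 0 := by
  rw [ev4_eq_of_zr u0 u1 u2 u3 t7BP2_3_0 (add4 (mul4 t7BZP3 t7BWP0) (mul4 t7BZP0 t7BWP3)) (by decide +kernel)]
  simp only [ev4_add, ev4_mul, t7BZP3_ev, t7BWP0_ev, t7BZP0_ev, t7BWP3_ev, pm2]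

def t7BP2_3_1 : P4 := [[],[[],[],[],[[216]]],[[],[],[[108]]],[[],[[24]]],[[[2]]]]

theorem t7BP2_3_1_ev (u0 u1 u2 u3 : ℝ) : ev4 u0 u1 u2 u3 t7BP2_3_1 = pm2 (ev4 u0 u1 u2 u3 t7BZ) (ev4 u0 u1 u2 u3 t7BW) 3 1 := by
  rw [ev4_eq_of_zr u0 u1 u2 u3 t7BP2_3_1 (add4 (mul4 t7BZP3 t7BWP1) (mul4 t7BZP1 t7BWP3)) (by decide +kernel)]
  simp only [ev4_add, ev4_mul, t7BZP3_ev, t7BWP1_ev, t7BZP1_ev, t7BWP3_ev, pm2]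

def t7BP2_3_2 : P4 := [[],[],[[],[],[],[[216]]],[[],[],[[144]]],[[],[[30]]],[[[2]]]]

theorem t7BP2_3_2_ev (u0 u1 u2 u3 : ℝ) : ev4 u0 u1 u2 u3 t7BP2_3_2 = pm2 (ev4 u0 u1 u2 u3 t7BZ) (ev4 u0 u1 u2 u3 t7BW) 3 2 := by
  rw [ev4_eq_of_zr u0 u1 u2 u3 t7BP2_3_2 (add4 (mul4 t7BZP3 t7BWP2) (mul4 t7BZP2 t7BWP3)) (by decide +kernel)]
  simp only [ev4_add, ev4_mul, t7BZP3_ev, t7BWP2_ev, t7BZP2_ev, t7BWP3_ev, pm2]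

def t7BP2_3_3 : P4 := [[],[],[],[[],[],[],[[432]]],[[],[],[[216]]],[[],[[36]]],[[[2]]]]

theorem t7BP2_3_3_ev (u0 u1 u2 u3 : ℝ) : ev4 u0 u1 u2 u3 t7BP2_3_3 = pm2 (ev4 u0 u1 u2 u3 t7BZ) (ev4 u0 u1 u2 u3 t7BW) 3 3 := by
  rw [ev4_eq_of_zr u0 u1 u2 u3 t7BP2_3_3 (add4 (mul4 t7BZP3 t7BWP3) (mul4 t7BZP3 t7BWP3)) (by decide +kernel)]
  simp only [ev4_add, ev4_mul, t7BZP3_ev, t7BWP3_ev, t7BZP3_ev, t7BWP3_ev, pm2]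

def t7BP2_4_0 : P4 := [[[],[],[],[],[[1296]]],[[],[],[],[[864]]],[[],[],[[216]]],[[],[[24]]],[[[2]]]]

theorem t7BP2_4_0_ev (u0 u1 u2 u3 : ℝ) : ev4 u0 u1 u2 u3 t7BP2_4_0 = pm2 (ev4 u0 u1 u2 u3 t7BZ) (ev4 u0 u1 u2 u3 t7BW) 4 0 := by
  rw [ev4_eq_of_zr u0 u1 u2 u3 t7BP2_4_0 (add4 (mul4 t7BZP4 t7BWP0) (mul4 t7BZP0 t7BWP4)) (by decide +kernel)]
  simp only [ev4_add, ev4_mul, t7BZP4_ev, t7BWP0_ev, t7BZP0_ev, t7BWP4_ev, pm2]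

def t7BP2_4_1 : P4 := [[],[[],[],[],[],[[1296]]],[[],[],[],[[864]]],[[],[],[[216]]],[[],[[30]]],[[[2]]]]

theorem t7BP2_4_1_ev (u0 u1 u2 u3 : ℝ) : ev4 u0 u1 u2 u3 t7BP2_4_1 = pm2 (ev4 u0 u1 u2 u3 t7BZ) (ev4 u0 u1 u2 u3 t7BW) 4 1 := by
  rw [ev4_eq_of_zr u0 u1 u2 u3 t7BP2_4_1 (add4 (mul4 t7BZP4 t7BWP1) (mul4 t7BZP1 t7BWP4)) (by decide +kernel)]
  simp only [ev4_add, ev4_mul, t7BZP4_ev, t7BWP1_ev, t7BZP1_ev, t7BWP4_ev, pm2]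

def t7BP2_4_2 : P4 := [[],[],[[],[],[],[],[[1296]]],[[],[],[],[[864]]],[[],[],[[252]]],[[],[[36]]],[[[2]]]]

theorem t7BP2_4_2_ev (u0 u1 u2 u3 : ℝ) : ev4 u0 u1 u2 u3 t7BP2_4_2 = pm2 (ev4 u0 u1 u2 u3 t7BZ) (ev4 u0 u1 u2 u3 t7BW) 4 2 := by
  rw [ev4_eq_of_zr u0 u1 u2 u3 t7BP2_4_2 (add4 (mul4 t7BZP4 t7BWP2) (mul4 t7BZP2 t7BWP4)) (by decide +kernel)]
  simp only [ev4_add, ev4_mul, t7BZP4_ev, t7BWP2_ev, t7BZP2_ev, t7BWP4_ev, pm2]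

def t7BP2_4_3 : P4 := [[],[],[],[[],[],[],[],[[1296]]],[[],[],[],[[1080]]],[[],[],[[324]]],[[],[[42]]],[[[2]]]]

theorem t7BP2_4_3_ev (u0 u1 u2 u3 : ℝ) : ev4 u0 u1 u2 u3 t7BP2_4_3 = pm2 (ev4 u0 u1 u2 u3 t7BZ) (ev4 u0 u1 u2 u3 t7BW) 4 3 := by
  rw [ev4_eq_of_zr u0 u1 u2 u3 t7BP2_4_3 (add4 (mul4 t7BZP4 t7BWP3) (mul4 t7BZP3 t7BWP4)) (by decide +kernel)]
  simp only [ev4_add, ev4_mul, t7BZP4_ev, t7BWP3_ev, t7BZP3_ev, t7BWP4_ev, pm2]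

def t7BP2_5_0 : P4 := [[[],[],[],[],[],[[7776]]],[[],[],[],[],[[6480]]],[[],[],[],[[2160]]],[[],[],[[360]]],[[],[[30]]],[[[2]]]]

theorem t7BP2_5_0_ev (u0 u1 u2 u3 : ℝ) : ev4 u0 u1 u2 u3 t7BP2_5_0 = pm2 (ev4 u0 u1 u2 u3 t7BZ) (ev4 u0 u1 u2 u3 t7BW) 5 0 := by
  rw [ev4_eq_of_zr u0 u1 u2 u3 t7BP2_5_0 (add4 (mul4 t7BZP5 t7BWP0) (mul4 t7BZP0 t7BWP5)) (by decide +kernel)]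
  simp only [ev4_add, ev4_mul, t7BZP5_ev, t7BWP0_ev, t7BZP0_ev, t7BWP5_ev, pm2]

def t7BP2_5_1 : P4 := [[],[[],[],[],[],[],[[7776]]],[[],[],[],[],[[6480]]],[[],[],[],[[2160]]],[[],[],[[360]]],[[],[[36]]],[[[2]]]]

theorem t7BP2_5_1_ev (u0 u1 u2 u3 : ℝ) : ev4 u0 u1 u2 u3 t7BP2_5_1 = pm2 (ev4 u0 u1 u2 u3 t7BZ) (ev4 u0 u1 u2 u3 t7BW) 5 1 := by
  rw [ev4_eq_of_zr u0 u1 u2 u3 t7BP2_5_1 (add4 (mul4 t7BZP5 t7BWP1) (mul4 t7BZP1 t7BWP5)) (by decide +kernel)]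
  simp only [ev4_add, ev4_mul, t7BZP5_ev, t7BWP1_ev, t7BZP1_ev, t7BWP5_ev, pm2]

def t7BP2_5_2 : P4 := [[],[],[[],[],[],[],[],[[7776]]],[[],[],[],[],[[6480]]],[[],[],[],[[2160]]],[[],[],[[396]]],[[],[[42]]],[[[2]]]]

theorem t7BP2_5_2_ev (u0 u1 u2 u3 : ℝ) : ev4 u0 u1 u2 u3 t7BP2_5_2 = pm2 (ev4 u0 u1 u2 u3 t7BZ) (ev4 u0 u1 u2 u3 t7BW) 5 2 := by
  rw [ev4_eq_of_zr u0 u1 u2 u3 t7BP2_5_2 (add4 (mul4 t7BZP5 t7BWP2) (mul4 t7BZP2 t7BWP5)) (by decide +kernel)]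
  simp only [ev4_add, ev4_mul, t7BZP5_ev, t7BWP2_ev, t7BZP2_ev, t7BWP5_ev, pm2]

def t7BP2_6_0 : P4 := [[[],[],[],[],[],[],[[46656]]],[[],[],[],[],[],[[46656]]],[[],[],[],[],[[19440]]],[[],[],[],[[4320]]],[[],[],[[540]]],[[],[[36]]],[[[2]]]]

theorem t7BP2_6_0_ev (u0 u1 u2 u3 : ℝ) : ev4 u0 u1 u2 u3 t7BP2_6_0 = pm2 (ev4 u0 u1 u2 u3 t7BZ) (ev4 u0 u1 u2 u3 t7BW) 6 0 := by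
  rw [ev4_eq_of_zr u0 u1 u2 u3 t7BP2_6_0 (add4 (mul4 t7BZP6 t7BWP0) (mul4 t7BZP0 t7BWP6)) (by decide +kernel)]
  simp only [ev4_add, ev4_mul, t7BZP6_ev, t7BWP0_ev, t7BZP0_ev, t7BWP6_ev, pm2]

def t7BP2_6_1 : P4 := [[],[[],[],[],[],[],[],[[46656]]],[[],[],[],[],[],[[46656]]],[[],[],[],[],[[19440]]],[[],[],[],[[4320]]],[[],[],[[540]]],[[],[[42]]],[[[2]]]]

theorem t7BP2_6_1_ev (u0 u1 u2 u3 : ℝ) : ev4 u0 u1 u2 u3 t7BP2_6_1 = pm2 (ev4 u0 u1 u2 u3 t7BZ) (ev4 u0 u1 u2 u3 t7BW) 6 1 := by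
  rw [ev4_eq_of_zr u0 u1 u2 u3 t7BP2_6_1 (add4 (mul4 t7BZP6 t7BWP1) (mul4 t7BZP1 t7BWP6)) (by decide +kernel)]
  simp only [ev4_add, ev4_mul, t7BZP6_ev, t7BWP1_ev, t7BZP1_ev, t7BWP6_ev, pm2]

def t7BP2_7_0 : P4 := [[[],[],[],[],[],[],[],[[279936]]],[[],[],[],[],[],[],[[326592]]],[[],[],[],[],[],[[163296]]],[[],[],[],[],[[45360]]],[[],[],[],[[7560]]],[[],[],[[756]]],[[],[[42]]],[[[2]]]]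

theorem t7BP2_7_0_ev (u0 u1 u2 u3 : ℝ) : ev4 u0 u1 u2 u3 t7BP2_7_0 = pm2 (ev4 u0 u1 u2 u3 t7BZ) (ev4 u0 u1 u2 u3 t7BW) 7 0 := by
  rw [ev4_eq_of_zr u0 u1 u2 u3 t7BP2_7_0 (add4 (mul4 t7BZP7 t7BWP0) (mul4 t7BZP0 t7BWP7)) (by decide +kernel)]
  simp only [ev4_add, ev4_mul, t7BZP7_ev, t7BWP0_ev, t7BZP0_ev, t7BWP7_ev, pm2]

end Vale.Agent.P154
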