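import Vale.Agent.P154.R4.T7.BP2

namespace Vale.Agent.P154

set_option maxRecDepth 1000000
set_option maxHeartbeats 4000000

def t7BP3_0_0_0 : P4 := [[[[6]]]]

theorem t7BP3_0_0_0_ev (u0 u1 u2 u3 : ℝ) : ev4 u0 u1 u2 u3 t7BP3_0_0_0 = pm3 (ev4 u0 u1 u2 u3 t7BY) (ev4 u0 u1 u2 u3 t7BZ) (ev4 u0 u1 u2 u3 t7BW) 0 0 0 := by
  rw [ev4_eq_of_zr u0 u1 u2 u3 t7BP3_0_0_0 (add4 (add4 (mul4 t7BYP0 t7BP2_0_0) (mul4 t7BYP0 t7BP2_0_0)) (mul4 t7BYP0 t7BP2_0_0)) (by decide +kernel)]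
  simp only [ev4_add, ev4_mul, t7BYP0_ev, t7BYP0_ev, t7BYP0_ev, t7BP2_0_0_ev, t7BP2_0_0_ev, t7BP2_0_0_ev, pm3]

def t7BP3_1_0_0 : P4 := [[[[],[12]],[[24]]],[[[6]]]]

theorem t7BP3_1_0_0_ev (u0 u1 u2 u3 : ℝ) : ev4 u0 u1 u2 u3 t7BP3_1_0_0 = pm3 (ev4 u0 u1 u2 u3 t7BY) (ev4 u0 u1 u2 u3 t7BZ) (ev4 u0 u1 u2 u3 t7BW) 1 0 0 := by
  rw [ev4_eq_of_zr u0 u1 u2 u3 t7BP3_1_0_0 (add4 (add4 (mul4 t7BYP1 t7BP2_0_0) (mul4 t7BYP0 t7BP2_1_0)) (mul4 t7BYP0 t7BP2_1_0)) (by decide +kernel)]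
  simp only [ev4_add, ev4_mul, t7BYP1_ev, t7BYP0_ev, t7BYP0_ev, t7BP2_0_0_ev, t7BP2_1_0_ev, t7BP2_1_0_ev, pm3]

def t7BP3_1_1_0 : P4 := [[[],[[],[72]],[[72]]],[[[],[24]],[[48]]],[[[6]]]]

theorem t7BP3_1_1_0_ev (u0 u1 u2 u3 : ℝ) : ev4 u0 u1 u2 u3 t7BP3_1_1_0 = pm3 (ev4 u0 u1 u2 u3 t7BY) (ev4 u0 u1 u2 u3 t7BZ) (ev4 u0 u1 u2 u3 t7BW) 1 1 0 := by
  rw [ev4_eq_of_zr u0 u1 u2 u3 t7BP3_1_1_0 (add4 (add4 (mul4 t7BYP1 t7BP2_1_0) (mul4 t7BYP1 t7BP2_1_0)) (mul4 t7BYP0 t7BP2_1_1)) (by decide +kernel)]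
  simp only [ev4_add, ev4_mul, t7BYP1_ev, t7BYP1_ev, t7BYP0_ev, t7BP2_1_0_ev, t7BP2_1_0_ev, t7BP2_1_1_ev, pm3]

def t7BP3_1_1_1 : P4 := [[],[[],[[],[216]],[[216]]],[[[],[36]],[[72]]],[[[6]]]]

theorem t7BP3_1_1_1_ev (u0 u1 u2 u3 : ℝ) : ev4 u0 u1 u2 u3 t7BP3_1_1_1 = pm3 (ev4 u0 u1 u2 u3 t7BY) (ev4 u0 u1 u2 u3 t7BZ) (ev4 u0 u1 u2 u3 t7BW) 1 1 1 := by
  rw [ev4_eq_of_zr u0 u1 u2 u3 t7BP3_1_1_1 (add4 (add4 (mul4 t7BYP1 t7BP2_1_1) (mul4 t7BYP1 t7BP2_1_1)) (mul4 t7BYP1 t7BP2_1_1)) (by decide +kernel)]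
  simp only [ev4_add, ev4_mul, t7BYP1_ev, t7BYP1_ev, t7BYP1_ev, t7BP2_1_1_ev, t7BP2_1_1_ev, t7BP2_1_1_ev, pm3]

def t7BP3_2_0_0 : P4 := [[[[],[],[72]],[[],[144]],[[144]]],[[[],[24]],[[48]]],[[[6]]]]

theorem t7BP3_2_0_0_ev (u0 u1 u2 u3 : ℝ) : ev4 u0 u1 u2 u3 t7BP3_2_0_0 = pm3 (ev4 u0 u1 u2 u3 t7BY) (ev4 u0 u1 u2 u3 t7BZ) (ev4 u0 u1 u2 u3 t7BW) 2 0 0 := by
  rw [ev4_eq_of_zr u0 u1 u2 u3 t7BP3_2_0_0 (add4 (add4 (mul4 t7BYP2 t7BP2_0_0) (mul4 t7BYP0 t7BP2_2_0)) (mul4 t7BYP0 t7BP2_2_0)) (by decide +kernel)]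
  simp only [ev4_add, ev4_mul, t7BYP2_ev, t7BYP0_ev, t7BYP0_ev, t7BP2_0_0_ev, t7BP2_2_0_ev, t7BP2_2_0_ev, pm3]

def t7BP3_2_1_0 : P4 := [[[],[[],[],[216]],[[],[648]],[[432]]],[[[],[],[72]],[[],[288]],[[288]]],[[[],[36]],[[72]]],[[[6]]]]

theorem t7BP3_2_1_0_ev (u0 u1 u2 u3 : ℝ) : ev4 u0 u1 u2 u3 t7BP3_2_1_0 = pm3 (ev4 u0 u1 u2 u3 t7BY) (ev4 u0 u1 u2 u3 t7BZ) (ev4 u0 u1 u2 u3 t7BW) 2 1 0 := by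
  rw [ev4_eq_of_zr u0 u1 u2 u3 t7BP3_2_1_0 (add4 (add4 (mul4 t7BYP2 t7BP2_1_0) (mul4 t7BYP1 t7BP2_2_0)) (mul4 t7BYP0 t7BP2_2_1)) (by decide +kernel)]
  simp only [ev4_add, ev4_mul, t7BYP2_ev, t7BYP1_ev, t7BYP0_ev, t7BP2_1_0_ev, t7BP2_2_0_ev, t7BP2_2_1_ev, pm3]

def t7BP3_2_1_1 : P4 := [[],[[],[[],[],[432]],[[],[1296]],[[864]]],[[[],[],[72]],[[],[504]],[[504]]],[[[],[48]],[[96]]],[[[6]]]]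

theorem t7BP3_2_1_1_ev (u0 u1 u2 u3 : ℝ) : ev4 u0 u1 u2 u3 t7BP3_2_1_1 = pm3 (ev4 u0 u1 u2 u3 t7BY) (ev4 u0 u1 u2 u3 t7BZ) (ev4 u0 u1 u2 u3 t7BW) 2 1 1 := by
  rw [ev4_eq_of_zr u0 u1 u2 u3 t7BP3_2_1_1 (add4 (add4 (mul4 t7BYP2 t7BP2_1_1) (mul4 t7BYP1 t7BP2_2_1)) (mul4 t7BYP1 t7BP2_2_1)) (by decide +kernel)]
  simp only [ev4_add, ev4_mul, t7BYP2_ev, t7BYP1_ev, t7BYP1_ev, t7BP2_1_1_ev, t7BP2_2_1_ev, t7BP2_2_1_ev, pm3]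

def t7BP3_2_2_0 : P4 := [[[],[],[[],[],[2592]],[[],[5184]],[[2592]]],[[],[[],[],[864]],[[],[2592]],[[1728]]],[[[],[],[144]],[[],[576]],[[576]]],[[[],[48]],[[96]]],[[[6]]]]

theorem t7BP3_2_2_0_ev (u0 u1 u2 u3 : ℝ) : ev4 u0 u1 u2 u3 t7BP3_2_2_0 = pm3 (ev4 u0 u1 u2 u3 t7BY) (ev4 u0 u1 u2 u3 t7BZ) (ev4 u0 u1 u2 u3 t7BW) 2 2 0 := by
  rw [ev4_eq_of_zr u0 u1 u2 u3 t7BP3_2_2_0 (add4 (add4 (mul4 t7BYP2 t7BP2_2_0) (mul4 t7BYP2 t7BP2_2_0)) (mul4 t7BYP0 t7BP2_2_2)) (by decide +kernel)]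
  simp only [ev4_add, ev4_mul, t7BYP2_ev, t7BYP2_ev, t7BYP0_ev, t7BP2_2_0_ev, t7BP2_2_0_ev, t7BP2_2_2_ev, pm3]

def t7BP3_2_2_1 : P4 := [[],[[],[],[[],[],[2592]],[[],[5184]],[[2592]]],[[],[[],[],[1296]],[[],[3888]],[[2592]]],[[[],[],[144]],[[],[864]],[[864]]],[[[],[60]],[[120]]],[[[6]]]]

theorem t7BP3_2_2_1_ev (u0 u1 u2 u3 : ℝ) : ev4 u0 u1 u2 u3 t7BP3_2_2_1 = pm3 (ev4 u0 u1 u2 u3 t7BY) (ev4 u0 u1 u2 u3 t7BZ) (ev4 u0 u1 u2 u3 t7BW) 2 2 1 := by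
  rw [ev4_eq_of_zr u0 u1 u2 u3 t7BP3_2_2_1 (add4 (add4 (mul4 t7BYP2 t7BP2_2_1) (mul4 t7BYP2 t7BP2_2_1)) (mul4 t7BYP1 t7BP2_2_2)) (by decide +kernel)]
  simp only [ev4_add, ev4_mul, t7BYP2_ev, t7BYP2_ev, t7BYP1_ev, t7BP2_2_1_ev, t7BP2_2_1_ev, t7BP2_2_2_ev, pm3]

def t7BP3_2_2_2 : P4 := [[],[],[[],[],[[],[],[7776]],[[],[15552]],[[7776]]],[[],[[],[],[2592]],[[],[7776]],[[5184]]],[[[],[],[216]],[[],[1296]],[[1296]]],[[[],[72]],[[144]]],[[[6]]]]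

theorem t7BP3_2_2_2_ev (u0 u1 u2 u3 : ℝ) : ev4 u0 u1 u2 u3 t7BP3_2_2_2 = pm3 (ev4 u0 u1 u2 u3 t7BY) (ev4 u0 u1 u2 u3 t7BZ) (ev4 u0 u1 u2 u3 t7BW) 2 2 2 := by
  rw [ev4_eq_of_zr u0 u1 u2 u3 t7BP3_2_2_2 (add4 (add4 (mul4 t7BYP2 t7BP2_2_2) (mul4 t7BYP2 t7BP2_2_2)) (mul4 t7BYP2 t7BP2_2_2)) (by decide +kernel)]
  simp only [ev4_add, ev4_mul, t7BYP2_ev, t7BYP2_ev, t7BYP2_ev, t7BP2_2_2_ev, t7BP2_2_2_ev, t7BP2_2_2_ev, pm3]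

def t7BP3_3_0_0 : P4 := [[[[],[],[],[432]],[[],[],[1296]],[[],[1296]],[[864]]],[[[],[],[216]],[[],[432]],[[432]]],[[[],[36]],[[72]]],[[[6]]]]

theorem t7BP3_3_0_0_ev (u0 u1 u2 u3 : ℝ) : ev4 u0 u1 u2 u3 t7BP3_3_0_0 = pm3 (ev4 u0 u1 u2 u3 t7BY) (ev4 u0 u1 u2 u3 t7BZ) (ev4 u0 u1 u2 u3 t7BW) 3 0 0 := by
  rw [ev4_eq_of_zr u0 u1 u2 u3 t7BP3_3_0_0 (add4 (add4 (mul4 t7BYP3 t7BP2_0_0) (mul4 t7BYP0 t7BP2_3_0)) (mul4 t7BYP0 t7BP2_3_0)) (by decide +kernel)]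
  simp only [ev4_add, ev4_mul, t7BYP3_ev, t7BYP0_ev, t7BYP0_ev, t7BP2_0_0_ev, t7BP2_3_0_ev, t7BP2_3_0_ev, pm3]

def t7BP3_3_1_0 : P4 := [[[],[[],[],[],[1296]],[[],[],[3888]],[[],[5184]],[[2592]]],[[[],[],[],[432]],[[],[],[1944]],[[],[3240]],[[2160]]],[[[],[],[216]],[[],[648]],[[648]]],[[[],[48]],[[96]]],[[[6]]]]

theorem t7BP3_3_1_0_ev (u0 u1 u2 u3 : ℝ) : ev4 u0 u1 u2 u3 t7BP3_3_1_0 = pm3 (ev4 u0 u1 u2 u3 t7BY) (ev4 u0 u1 u2 u3 t7BZ) (ev4 u0 u1 u2 u3 t7BW) 3 1 0 := by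
  rw [ev4_eq_of_zr u0 u1 u2 u3 t7BP3_3_1_0 (add4 (add4 (mul4 t7BYP3 t7BP2_1_0) (mul4 t7BYP1 t7BP2_3_0)) (mul4 t7BYP0 t7BP2_3_1)) (by decide +kernel)]
  simp only [ev4_add, ev4_mul, t7BYP3_ev, t7BYP1_ev, t7BYP0_ev, t7BP2_1_0_ev, t7BP2_3_0_ev, t7BP2_3_1_ev, pm3]

def t7BP3_3_1_1 : P4 := [[],[[],[[],[],[],[2592]],[[],[],[7776]],[[],[10368]],[[5184]]],[[[],[],[],[432]],[[],[],[2592]],[[],[5184]],[[3456]]],[[[],[],[216]],[[],[936]],[[936]]],[[[],[60]],[[120]]],[[[6]]]]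

theorem t7BP3_3_1_1_ev (u0 u1 u2 u3 : ℝ) : ev4 u0 u1 u2 u3 t7BP3_3_1_1 = pm3 (ev4 u0 u1 u2 u3 t7BY) (ev4 u0 u1 u2 u3 t7BZ) (ev4 u0 u1 u2 u3 t7BW) 3 1 1 := by
  rw [ev4_eq_of_zr u0 u1 u2 u3 t7BP3_3_1_1 (add4 (add4 (mul4 t7BYP3 t7BP2_1_1) (mul4 t7BYP1 t7BP2_3_1)) (mul4 t7BYP1 t7BP2_3_1)) (by decide +kernel)]
  simp only [ev4_add, ev4_mul, t7BYP3_ev, t7BYP1_ev, t7BYP1_ev, t7BP2_1_1_ev, t7BP2_3_1_ev, t7BP2_3_1_ev, pm3]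

def t7BP3_3_2_0 : P4 := [[[],[],[[],[],[],[7776]],[[],[],[31104]],[[],[38880]],[[15552]]],[[],[[],[],[],[2592]],[[],[],[15552]],[[],[25920]],[[12960]]],[[[],[],[],[432]],[[],[],[3240]],[[],[7128]],[[4752]]],[[[],[],[288]],[[],[1008]],[[1008]]],[[[],[60]],[[120]]],[[[6]]]]

theorem t7BP3_3_2_0_ev (u0 u1 u2 u3 : ℝ) : ev4 u0 u1 u2 u3 t7BP3_3_2_0 = pm3 (ev4 u0 u1 u2 u3 t7BY) (ev4 u0 u1 u2 u3 t7BZ) (ev4 u0 u1 u2 u3 t7BW) 3 2 0 := by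
  rw [ev4_eq_of_zr u0 u1 u2 u3 t7BP3_3_2_0 (add4 (add4 (mul4 t7BYP3 t7BP2_2_0) (mul4 t7BYP2 t7BP2_3_0)) (mul4 t7BYP0 t7BP2_3_2)) (by decide +kernel)]
  simp only [ev4_add, ev4_mul, t7BYP3_ev, t7BYP2_ev, t7BYP0_ev, t7BP2_2_0_ev, t7BP2_3_0_ev, t7BP2_3_2_ev, pm3]

def t7BP3_3_2_1 : P4 := [[],[[],[],[[],[],[],[7776]],[[],[],[31104]],[[],[38880]],[[15552]]],[[],[[],[],[],[3888]],[[],[],[19440]],[[],[31104]],[[15552]]],[[[],[],[],[432]],[[],[],[4104]],[[],[9720]],[[6480]]],[[[],[],[288]],[[],[1368]],[[1368]]],[[[],[72]],[[144]]],[[[6]]]]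

theorem t7BP3_3_2_1_ev (u0 u1 u2 u3 : ℝ) : ev4 u0 u1 u2 u3 t7BP3_3_2_1 = pm3 (ev4 u0 u1 u2 u3 t7BY) (ev4 u0 u1 u2 u3 t7BZ) (ev4 u0 u1 u2 u3 t7BW) 3 2 1 := by
  rw [ev4_eq_of_zr u0 u1 u2 u3 t7BP3_3_2_1 (add4 (add4 (mul4 t7BYP3 t7BP2_2_1) (mul4 t7BYP2 t7BP2_3_1)) (mul4 t7BYP1 t7BP2_3_2)) (by decide +kernel)]
  simp only [ev4_add, ev4_mul, t7BYP3_ev, t7BYP2_ev, t7BYP1_ev, t7BP2_2_1_ev, t7BP2_3_1_ev, t7BP2_3_2_ev, pm3]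

def t7BP3_3_2_2 : P4 := [[],[],[[],[],[[],[],[],[15552]],[[],[],[62208]],[[],[77760]],[[31104]]],[[],[[],[],[],[5184]],[[],[],[33696]],[[],[57024]],[[28512]]],[[[],[],[],[432]],[[],[],[6048]],[[],[15552]],[[10368]]],[[[],[],[360]],[[],[1872]],[[1872]]],[[[],[84]],[[168]]],[[[6]]]]

theorem t7BP3_3_2_2_ev (u0 u1 u2 u3 : ℝ) : ev4 u0 u1 u2 u3 t7BP3_3_2_2 = pm3 (ev4 u0 u1 u2 u3 t7BY) (ev4 u0 u1 u2 u3 t7BZ) (ev4 u0 u1 u2 u3 t7BW) 3 2 2 := by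
  rw [ev4_eq_of_zr u0 u1 u2 u3 t7BP3_3_2_2 (add4 (add4 (mul4 t7BYP3 t7BP2_2_2) (mul4 t7BYP2 t7BP2_3_2)) (mul4 t7BYP2 t7BP2_3_2)) (by decide +kernel)]
  simp only [ev4_add, ev4_mul, t7BYP3_ev, t7BYP2_ev, t7BYP2_ev, t7BP2_2_2_ev, t7BP2_3_2_ev, t7BP2_3_2_ev, pm3]

def t7BP3_3_3_0 : P4 := [[[],[],[],[[],[],[],[93312]],[[],[],[279936]],[[],[279936]],[[93312]]],[[],[],[[],[],[],[46656]],[[],[],[186624]],[[],[233280]],[[93312]]],[[],[[],[],[],[7776]],[[],[],[46656]],[[],[77760]],[[38880]]],[[[],[],[],[864]],[[],[],[6480]],[[],[14256]],[[9504]]],[[[],[],[432]],[[],[1512]],[[1512]]],[[[],[72]],[[144]]],[[[6]]]]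

theorem t7BP3_3_3_0_ev (u0 u1 u2 u3 : ℝ) : ev4 u0 u1 u2 u3 t7BP3_3_3_0 = pm3 (ev4 u0 u1 u2 u3 t7BY) (ev4 u0 u1 u2 u3 t7BZ) (ev4 u0 u1 u2 u3 t7BW) 3 3 0 := by
  rw [ev4_eq_of_zr u0 u1 u2 u3 t7BP3_3_3_0 (add4 (add4 (mul4 t7BYP3 t7BP2_3_0) (mul4 t7BYP3 t7BP2_3_0)) (mul4 t7BYP0 t7BP2_3_3)) (by decide +kernel)]
  simp only [ev4_add, ev4_mul, t7BYP3_ev, t7BYP3_ev, t7BYP0_ev, t7BP2_3_0_ev, t7BP2_3_0_ev, t7BP2_3_3_ev, pm3]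

def t7BP3_3_3_1 : P4 := [[],[[],[],[],[[],[],[],[93312]],[[],[],[279936]],[[],[279936]],[[93312]]],[[],[],[[],[],[],[46656]],[[],[],[186624]],[[],[233280]],[[93312]]],[[],[[],[],[],[10368]],[[],[],[54432]],[[],[88128]],[[44064]]],[[[],[],[],[864]],[[],[],[7776]],[[],[18144]],[[12096]]],[[[],[],[432]],[[],[1944]],[[1944]]],[[[],[84]],[[168]]],[[[6]]]]

theorem t7BP3_3_3_1_ev (u0 u1 u2 u3 : ℝ) : ev4 u0 u1 u2 u3 t7BP3_3_3_1 = pm3 (ev4 u0 u1 u2 u3 t7BY) (ev4 u0 u1 u2 u3 t7BZ) (ev4 u0 u1 u2 u3 t7BW) 3 3 1 := by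
  rw [ev4_eq_of_zr u0 u1 u2 u3 t7BP3_3_3_1 (add4 (add4 (mul4 t7BYP3 t7BP2_3_1) (mul4 t7BYP3 t7BP2_3_1)) (mul4 t7BYP1 t7BP2_3_3)) (by decide +kernel)]
  simp only [ev4_add, ev4_mul, t7BYP3_ev, t7BYP3_ev, t7BYP1_ev, t7BP2_3_1_ev, t7BP2_3_1_ev, t7BP2_3_3_ev, pm3]

def t7BP3_4_0_0 : P4 := [[[[],[],[],[],[2592]],[[],[],[],[10368]],[[],[],[15552]],[[],[10368]],[[5184]]],[[[],[],[],[1728]],[[],[],[5184]],[[],[5184]],[[3456]]],[[[],[],[432]],[[],[864]],[[864]]],[[[],[48]],[[96]]],[[[6]]]]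

theorem t7BP3_4_0_0_ev (u0 u1 u2 u3 : ℝ) : ev4 u0 u1 u2 u3 t7BP3_4_0_0 = pm3 (ev4 u0 u1 u2 u3 t7BY) (ev4 u0 u1 u2 u3 t7BZ) (ev4 u0 u1 u2 u3 t7BW) 4 0 0 := by
  rw [ev4_eq_of_zr u0 u1 u2 u3 t7BP3_4_0_0 (add4 (add4 (mul4 t7BYP4 t7BP2_0_0) (mul4 t7BYP0 t7BP2_4_0)) (mul4 t7BYP0 t7BP2_4_0)) (by decide +kernel)]
  simp only [ev4_add, ev4_mul, t7BYP4_ev, t7BYP0_ev, t7BYP0_ev, t7BP2_0_0_ev, t7BP2_4_0_ev, t7BP2_4_0_ev, pm3]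

def t7BP3_4_1_0 : P4 := [[[],[[],[],[],[],[7776]],[[],[],[],[31104]],[[],[],[46656]],[[],[38880]],[[15552]]],[[[],[],[],[],[2592]],[[],[],[],[15552]],[[],[],[31104]],[[],[31104]],[[15552]]],[[[],[],[],[1728]],[[],[],[6480]],[[],[9072]],[[6048]]],[[[],[],[432]],[[],[1152]],[[1152]]],[[[],[60]],[[120]]],[[[6]]]]

theorem t7BP3_4_1_0_ev (u0 u1 u2 u3 : ℝ) : ev4 u0 u1 u2 u3 t7BP3_4_1_0 = pm3 (ev4 u0 u1 u2 u3 t7BY) (ev4 u0 u1 u2 u3 t7BZ) (ev4 u0 u1 u2 u3 t7BW) 4 1 0 := by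
  rw [ev4_eq_of_zr u0 u1 u2 u3 t7BP3_4_1_0 (add4 (add4 (mul4 t7BYP4 t7BP2_1_0) (mul4 t7BYP1 t7BP2_4_0)) (mul4 t7BYP0 t7BP2_4_1)) (by decide +kernel)]
  simp only [ev4_add, ev4_mul, t7BYP4_ev, t7BYP1_ev, t7BYP0_ev, t7BP2_1_0_ev, t7BP2_4_0_ev, t7BP2_4_1_ev, pm3]

def t7BP3_4_1_1 : P4 := [[],[[],[[],[],[],[],[15552]],[[],[],[],[62208]],[[],[],[93312]],[[],[77760]],[[31104]]],[[[],[],[],[],[2592]],[[],[],[],[20736]],[[],[],[46656]],[[],[51840]],[[25920]]],[[[],[],[],[1728]],[[],[],[7776]],[[],[12960]],[[8640]]],[[[],[],[432]],[[],[1512]],[[1512]]],[[[],[72]],[[144]]],[[[6]]]]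

theorem t7BP3_4_1_1_ev (u0 u1 u2 u3 : ℝ) : ev4 u0 u1 u2 u3 t7BP3_4_1_1 = pm3 (ev4 u0 u1 u2 u3 t7BY) (ev4 u0 u1 u2 u3 t7BZ) (ev4 u0 u1 u2 u3 t7BW) 4 1 1 := by
  rw [ev4_eq_of_zr u0 u1 u2 u3 t7BP3_4_1_1 (add4 (add4 (mul4 t7BYP4 t7BP2_1_1) (mul4 t7BYP1 t7BP2_4_1)) (mul4 t7BYP1 t7BP2_4_1)) (by decide +kernel)]
  simp only [ev4_add, ev4_mul, t7BYP4_ev, t7BYP1_ev, t7BYP1_ev, t7BP2_1_1_ev, t7BP2_4_1_ev, t7BP2_4_1_ev, pm3]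

def t7BP3_4_2_0 : P4 := [[[],[],[[],[],[],[],[46656]],[[],[],[],[186624]],[[],[],[326592]],[[],[279936]],[[93312]]],[[],[[],[],[],[],[15552]],[[],[],[],[93312]],[[],[],[217728]],[[],[233280]],[[93312]]],[[[],[],[],[],[2592]],[[],[],[],[20736]],[[],[],[62208]],[[],[82944]],[[41472]]],[[[],[],[],[1728]],[[],[],[8640]],[[],[15552]],[[10368]]],[[[],[],[504]],[[],[1584]],[[1584]]],[[[],[72]],[[144]]],[[[6]]]]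

theorem t7BP3_4_2_0_ev (u0 u1 u2 u3 : ℝ) : ev4 u0 u1 u2 u3 t7BP3_4_2_0 = pm3 (ev4 u0 u1 u2 u3 t7BY) (ev4 u0 u1 u2 u3 t7BZ) (ev4 u0 u1 u2 u3 t7BW) 4 2 0 := by
  rw [ev4_eq_of_zr u0 u1 u2 u3 t7BP3_4_2_0 (add4 (add4 (mul4 t7BYP4 t7BP2_2_0) (mul4 t7BYP2 t7BP2_4_0)) (mul4 t7BYP0 t7BP2_4_2)) (by decide +kernel)]
  simp only [ev4_add, ev4_mul, t7BYP4_ev, t7BYP2_ev, t7BYP0_ev, t7BP2_2_0_ev, t7BP2_4_0_ev, t7BP2_4_2_ev, pm3]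

def t7BP3_4_2_1 : P4 := [[],[[],[],[[],[],[],[],[46656]],[[],[],[],[186624]],[[],[],[326592]],[[],[279936]],[[93312]]],[[],[[],[],[],[],[23328]],[[],[],[],[124416]],[[],[],[264384]],[[],[272160]],[[108864]]],[[[],[],[],[],[2592]],[[],[],[],[25920]],[[],[],[77760]],[[],[103680]],[[51840]]],[[[],[],[],[1728]],[[],[],[10152]],[[],[20088]],[[13392]]],[[[],[],[504]],[[],[2016]],[[2016]]],[[[],[84]],[[168]]],[[[6]]]]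

theorem t7BP3_4_2_1_ev (u0 u1 u2 u3 : ℝ) : ev4 u0 u1 u2 u3 t7BP3_4_2_1 = pm3 (ev4 u0 u1 u2 u3 t7BY) (ev4 u0 u1 u2 u3 t7BZ) (ev4 u0 u1 u2 u3 t7BW) 4 2 1 := by
  rw [ev4_eq_of_zr u0 u1 u2 u3 t7BP3_4_2_1 (add4 (add4 (mul4 t7BYP4 t7BP2_2_1) (mul4 t7BYP2 t7BP2_4_1)) (mul4 t7BYP1 t7BP2_4_2)) (by decide +kernel)]
  simp only [ev4_add, ev4_mul, t7BYP4_ev, t7BYP2_ev, t7BYP1_ev, t7BP2_2_1_ev, t7BP2_4_1_ev, t7BP2_4_2_ev, pm3]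

def t7BP3_4_3_0 : P4 := [[[],[],[],[[],[],[],[],[279936]],[[],[],[],[1399680]],[[],[],[2519424]],[[],[1959552]],[[559872]]],[[],[],[[],[],[],[],[139968]],[[],[],[],[933120]],[[],[],[2099520]],[[],[1959552]],[[653184]]],[[],[[],[],[],[],[23328]],[[],[],[],[233280]],[[],[],[699840]],[[],[816480]],[[326592]]],[[[],[],[],[],[2592]],[[],[],[],[31104]],[[],[],[124416]],[[],[186624]],[[93312]]],[[[],[],[],[2160]],[[],[],[12960]],[[],[25920]],[[17280]]],[[[],[],[648]],[[],[2160]],[[2160]]],[[[],[84]],[[168]]],[[[6]]]]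

theorem t7BP3_4_3_0_ev (u0 u1 u2 u3 : ℝ) : ev4 u0 u1 u2 u3 t7BP3_4_3_0 = pm3 (ev4 u0 u1 u2 u3 t7BY) (ev4 u0 u1 u2 u3 t7BZ) (ev4 u0 u1 u2 u3 t7BW) 4 3 0 := by
  rw [ev4_eq_of_zr u0 u1 u2 u3 t7BP3_4_3_0 (add4 (add4 (mul4 t7BYP4 t7BP2_3_0) (mul4 t7BYP3 t7BP2_4_0)) (mul4 t7BYP0 t7BP2_4_3)) (by decide +kernel)]
  simp only [ev4_add, ev4_mul, t7BYP4_ev, t7BYP3_ev, t7BYP0_ev, t7BP2_3_0_ev, t7BP2_4_0_ev, t7BP2_4_3_ev, pm3]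

def t7BP3_5_0_0 : P4 := [[[[],[],[],[],[],[15552]],[[],[],[],[],[77760]],[[],[],[],[155520]],[[],[],[155520]],[[],[77760]],[[31104]]],[[[],[],[],[],[12960]],[[],[],[],[51840]],[[],[],[77760]],[[],[51840]],[[25920]]],[[[],[],[],[4320]],[[],[],[12960]],[[],[12960]],[[8640]]],[[[],[],[720]],[[],[1440]],[[1440]]],[[[],[60]],[[120]]],[[[6]]]]

theorem t7BP3_5_0_0_ev (u0 u1 u2 u3 : ℝ) : ev4 u0 u1 u2 u3 t7BP3_5_0_0 = pm3 (ev4 u0 u1 u2 u3 t7BY) (ev4 u0 u1 u2 u3 t7BZ) (ev4 u0 u1 u2 u3 t7BW) 5 0 0 := by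
  rw [ev4_eq_of_zr u0 u1 u2 u3 t7BP3_5_0_0 (add4 (add4 (mul4 t7BYP5 t7BP2_0_0) (mul4 t7BYP0 t7BP2_5_0)) (mul4 t7BYP0 t7BP2_5_0)) (by decide +kernel)]
  simp only [ev4_add, ev4_mul, t7BYP5_ev, t7BYP0_ev, t7BYP0_ev, t7BP2_0_0_ev, t7BP2_5_0_ev, t7BP2_5_0_ev, pm3]

def t7BP3_5_1_0 : P4 := [[[],[[],[],[],[],[],[46656]],[[],[],[],[],[233280]],[[],[],[],[466560]],[[],[],[466560]],[[],[279936]],[[93312]]],[[[],[],[],[],[],[15552]],[[],[],[],[],[116640]],[[],[],[],[311040]],[[],[],[388800]],[[],[272160]],[[108864]]],[[[],[],[],[],[12960]],[[],[],[],[64800]],[[],[],[116640]],[[],[103680]],[[51840]]],[[[],[],[],[4320]],[[],[],[15120]],[[],[19440]],[[12960]]],[[[],[],[720]],[[],[1800]],[[1800]]],[[[],[72]],[[144]]],[[[6]]]]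

theorem t7BP3_5_1_0_ev (u0 u1 u2 u3 : ℝ) : ev4 u0 u1 u2 u3 t7BP3_5_1_0 = pm3 (ev4 u0 u1 u2 u3 t7BY) (ev4 u0 u1 u2 u3 t7BZ) (ev4 u0 u1 u2 u3 t7BW) 5 1 0 := by
  rw [ev4_eq_of_zr u0 u1 u2 u3 t7BP3_5_1_0 (add4 (add4 (mul4 t7BYP5 t7BP2_1_0) (mul4 t7BYP1 t7BP2_5_0)) (mul4 t7BYP0 t7BP2_5_1)) (by decide +kernel)]
  simp only [ev4_add, ev4_mul, t7BYP5_ev, t7BYP1_ev, t7BYP0_ev, t7BP2_1_0_ev, t7BP2_5_0_ev, t7BP2_5_1_ev, pm3]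

def t7BP3_5_1_1 : P4 := [[],[[],[[],[],[],[],[],[93312]],[[],[],[],[],[466560]],[[],[],[],[933120]],[[],[],[933120]],[[],[559872]],[[186624]]],[[[],[],[],[],[],[15552]],[[],[],[],[],[155520]],[[],[],[],[466560]],[[],[],[622080]],[[],[466560]],[[186624]]],[[[],[],[],[],[12960]],[[],[],[],[77760]],[[],[],[155520]],[[],[155520]],[[77760]]],[[[],[],[],[4320]],[[],[],[17280]],[[],[25920]],[[17280]]],[[[],[],[720]],[[],[2232]],[[2232]]],[[[],[84]],[[168]]],[[[6]]]]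

theorem t7BP3_5_1_1_ev (u0 u1 u2 u3 : ℝ) : ev4 u0 u1 u2 u3 t7BP3_5_1_1 = pm3 (ev4 u0 u1 u2 u3 t7BY) (ev4 u0 u1 u2 u3 t7BZ) (ev4 u0 u1 u2 u3 t7BW) 5 1 1 := by
  rw [ev4_eq_of_zr u0 u1 u2 u3 t7BP3_5_1_1 (add4 (add4 (mul4 t7BYP5 t7BP2_1_1) (mul4 t7BYP1 t7BP2_5_1)) (mul4 t7BYP1 t7BP2_5_1)) (by decide +kernel)]
  simp only [ev4_add, ev4_mul, t7BYP5_ev, t7BYP1_ev, t7BYP1_ev, t7BP2_1_1_ev, t7BP2_5_1_ev, t7BP2_5_1_ev, pm3]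

def t7BP3_5_2_0 : P4 := [[[],[],[[],[],[],[],[],[279936]],[[],[],[],[],[1399680]],[[],[],[],[2799360]],[[],[],[3079296]],[[],[1959552]],[[559872]]],[[],[[],[],[],[],[],[93312]],[[],[],[],[],[699840]],[[],[],[],[1866240]],[[],[],[2566080]],[[],[1959552]],[[653184]]],[[[],[],[],[],[],[15552]],[[],[],[],[],[155520]],[[],[],[],[544320]],[[],[],[933120]],[[],[855360]],[[342144]]],[[[],[],[],[],[12960]],[[],[],[],[77760]],[[],[],[181440]],[[],[207360]],[[103680]]],[[[],[],[],[4320]],[[],[],[18360]],[[],[29160]],[[19440]]],[[[],[],[792]],[[],[2304]],[[2304]]],[[[],[84]],[[168]]],[[[6]]]]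

theorem t7BP3_5_2_0_ev (u0 u1 u2 u3 : ℝ) : ev4 u0 u1 u2 u3 t7BP3_5_2_0 = pm3 (ev4 u0 u1 u2 u3 t7BY) (ev4 u0 u1 u2 u3 t7BZ) (ev4 u0 u1 u2 u3 t7BW) 5 2 0 := by
  rw [ev4_eq_of_zr u0 u1 u2 u3 t7BP3_5_2_0 (add4 (add4 (mul4 t7BYP5 t7BP2_2_0) (mul4 t7BYP2 t7BP2_5_0)) (mul4 t7BYP0 t7BP2_5_2)) (by decide +kernel)]
  simp only [ev4_add, ev4_mul, t7BYP5_ev, t7BYP2_ev, t7BYP0_ev, t7BP2_2_0_ev, t7BP2_5_0_ev, t7BP2_5_2_ev, pm3]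

def t7BP3_6_0_0 : P4 := [[[[],[],[],[],[],[],[93312]],[[],[],[],[],[],[559872]],[[],[],[],[],[1399680]],[[],[],[],[1866240]],[[],[],[1399680]],[[],[559872]],[[186624]]],[[[],[],[],[],[],[93312]],[[],[],[],[],[466560]],[[],[],[],[933120]],[[],[],[933120]],[[],[466560]],[[186624]]],[[[],[],[],[],[38880]],[[],[],[],[155520]],[[],[],[233280]],[[],[155520]],[[77760]]],[[[],[],[],[8640]],[[],[],[25920]],[[],[25920]],[[17280]]],[[[],[],[1080]],[[],[2160]],[[2160]]],[[[],[72]],[[144]]],[[[6]]]]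

theorem t7BP3_6_0_0_ev (u0 u1 u2 u3 : ℝ) : ev4 u0 u1 u2 u3 t7BP3_6_0_0 = pm3 (ev4 u0 u1 u2 u3 t7BY) (ev4 u0 u1 u2 u3 t7BZ) (ev4 u0 u1 u2 u3 t7BW) 6 0 0 := by
  rw [ev4_eq_of_zr u0 u1 u2 u3 t7BP3_6_0_0 (add4 (add4 (mul4 t7BYP6 t7BP2_0_0) (mul4 t7BYP0 t7BP2_6_0)) (mul4 t7BYP0 t7BP2_6_0)) (by decide +kernel)]
  simp only [ev4_add, ev4_mul, t7BYP6_ev, t7BYP0_ev, t7BYP0_ev, t7BP2_0_0_ev, t7BP2_6_0_ev, t7BP2_6_0_ev, pm3]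

def t7BP3_6_1_0 : P4 := [[[],[[],[],[],[],[],[],[279936]],[[],[],[],[],[],[1679616]],[[],[],[],[],[4199040]],[[],[],[],[5598720]],[[],[],[4199040]],[[],[1959552]],[[559872]]],[[[],[],[],[],[],[],[93312]],[[],[],[],[],[],[839808]],[[],[],[],[],[2799360]],[[],[],[],[4665600]],[[],[],[4199040]],[[],[2239488]],[[746496]]],[[[],[],[],[],[],[93312]],[[],[],[],[],[583200]],[[],[],[],[1399680]],[[],[],[1632960]],[[],[1049760]],[[419904]]],[[[],[],[],[],[38880]],[[],[],[],[181440]],[[],[],[311040]],[[],[259200]],[[129600]]],[[[],[],[],[8640]],[[],[],[29160]],[[],[35640]],[[23760]]],[[[],[],[1080]],[[],[2592]],[[2592]]],[[[],[84]],[[168]]],[[[6]]]]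

theorem t7BP3_6_1_0_ev (u0 u1 u2 u3 : ℝ) : ev4 u0 u1 u2 u3 t7BP3_6_1_0 = pm3 (ev4 u0 u1 u2 u3 t7BY) (ev4 u0 u1 u2 u3 t7BZ) (ev4 u0 u1 u2 u3 t7BW) 6 1 0 := by
  rw [ev4_eq_of_zr u0 u1 u2 u3 t7BP3_6_1_0 (add4 (add4 (mul4 t7BYP6 t7BP2_1_0) (mul4 t7BYP1 t7BP2_6_0)) (mul4 t7BYP0 t7BP2_6_1)) (by decide +kernel)]
  simp only [ev4_add, ev4_mul, t7BYP6_ev, t7BYP1_ev, t7BYP0_ev, t7BP2_1_0_ev, t7BP2_6_0_ev, t7BP2_6_1_ev, pm3]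

def t7BP3_7_0_0 : P4 := [[[[],[],[],[],[],[],[],[559872]],[[],[],[],[],[],[],[3919104]],[[],[],[],[],[],[11757312]],[[],[],[],[],[19595520]],[[],[],[],[19595520]],[[],[],[11757312]],[[],[3919104]],[[1119744]]],[[[],[],[],[],[],[],[653184]],[[],[],[],[],[],[3919104]],[[],[],[],[],[9797760]],[[],[],[],[13063680]],[[],[],[9797760]],[[],[3919104]],[[1306368]]],[[[],[],[],[],[],[326592]],[[],[],[],[],[1632960]],[[],[],[],[3265920]],[[],[],[3265920]],[[],[1632960]],[[653184]]],[[[],[],[],[],[90720]],[[],[],[],[362880]],[[],[],[544320]],[[],[362880]],[[181440]]],[[[],[],[],[15120]],[[],[],[45360]],[[],[45360]],[[30240]]],[[[],[],[1512]],[[],[3024]],[[3024]]],[[[],[84]],[[168]]],[[[6]]]]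

theorem t7BP3_7_0_0_ev (u0 u1 u2 u3 : ℝ) : ev4 u0 u1 u2 u3 t7BP3_7_0_0 = pm3 (ev4 u0 u1 u2 u3 t7BY) (ev4 u0 u1 u2 u3 t7BZ) (ev4 u0 u1 u2 u3 t7BW) 7 0 0 := by
  rw [ev4_eq_of_zr u0 u1 u2 u3 t7BP3_7_0_0 (add4 (add4 (mul4 t7BYP7 t7BP2_0_0) (mul4 t7BYP0 t7BP2_7_0)) (mul4 t7BYP0 t7BP2_7_0)) (by decide +kernel)]
  simp only [ev4_add, ev4_mul, t7BYP7_ev, t7BYP0_ev, t7BYP0_ev, t7BP2_0_0_ev, t7BP2_7_0_ev, t7BP2_7_0_ev, pm3]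

end Vale.Agent.P154
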