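import Vale.Agent.P154.R4.T7.Ms

namespace Vale.Agent.P154

set_option maxRecDepth 1000000
set_option maxHeartbeats 4000000

def t7BX : P4 := lin4 1 6 6 6 0

theorem t7BX_ev (u0 u1 u2 u3 : ℝ) : ev4 u0 u1 u2 u3 t7BX = u0 + 6 * u1 + 6 * u2 + 6 * u3 := by
  rw [t7BX, ev4_lin]; push_cast; ring

def t7BXP0 : P4 := [[[[1]]]]

theorem t7BXP0_ev (u0 u1 u2 u3 : ℝ) : ev4 u0 u1 u2 u3 t7BXP0 = ev4 u0 u1 u2 u3 t7BX ^ 0 := by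
  simp [t7BXP0, ev4, ev3, ev2, ev1, evL]

def t7BXP1 : P4 := [[[[0,6],[6]],[[6]]],[[[1]]]]

theorem t7BXP1_ev (u0 u1 u2 u3 : ℝ) : ev4 u0 u1 u2 u3 t7BXP1 = ev4 u0 u1 u2 u3 t7BX ^ 1 := by
  rw [ev4_eq_of_zr u0 u1 u2 u3 t7BXP1 (mul4 t7BXP0 t7BX) (by decide +kernel), ev4_mul, t7BXP0_ev]; ring

def t7BXP2 : P4 := [[[[0,0,36],[0,72],[36]],[[0,72],[72]],[[36]]],[[[0,12],[12]],[[12]]],[[[1]]]]

theorem t7BXP2_ev (u0 u1 u2 u3 : ℝ) : ev4 u0 u1 u2 u3 t7BXP2 = ev4 u0 u1 u2 u3 t7BX ^ 2 := by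
  rw [ev4_eq_of_zr u0 u1 u2 u3 t7BXP2 (mul4 t7BXP1 t7BX) (by decide +kernel), ev4_mul, t7BXP1_ev]; ring

def t7BXP3 : P4 := [[[[0,0,0,216],[0,0,648],[0,648],[216]],[[0,0,648],[0,1296],[648]],[[0,648],[648]],[[216]]],[[[0,0,108],[0,216],[108]],[[0,216],[216]],[[108]]],[[[0,18],[18]],[[18]]],[[[1]]]]

theorem t7BXP3_ev (u0 u1 u2 u3 : ℝ) : ev4 u0 u1 u2 u3 t7BXP3 = ev4 u0 u1 u2 u3 t7BX ^ 3 := by
  rw [ev4_eq_of_zr u0 u1 u2 u3 t7BXP3 (mul4 t7BXP2 t7BX) (by decide +kernel), ev4_mul, t7BXP2_ev]; ring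

def t7BXP4 : P4 := [[[[0,0,0,0,1296],[0,0,0,5184],[0,0,7776],[0,5184],[1296]],[[0,0,0,5184],[0,0,15552],[0,15552],[5184]],[[0,0,7776],[0,15552],[7776]],[[0,5184],[5184]],[[1296]]],[[[0,0,0,864],[0,0,2592],[0,2592],[864]],[[0,0,2592],[0,5184],[2592]],[[0,2592],[2592]],[[864]]],[[[0,0,216],[0,432],[216]],[[0,432],[432]],[[216]]],[[[0,24],[24]],[[24]]],[[[1]]]]

theorem t7BXP4_ev (u0 u1 u2 u3 : ℝ) : ev4 u0 u1 u2 u3 t7BXP4 = ev4 u0 u1 u2 u3 t7BX ^ 4 := by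
  rw [ev4_eq_of_zr u0 u1 u2 u3 t7BXP4 (mul4 t7BXP3 t7BX) (by decide +kernel), ev4_mul, t7BXP3_ev]; ring

def t7BXP5 : P4 := [[[[0,0,0,0,0,7776],[0,0,0,0,38880],[0,0,0,77760],[0,0,77760],[0,38880],[7776]],[[0,0,0,0,38880],[0,0,0,155520],[0,0,233280],[0,155520],[38880]],[[0,0,0,77760],[0,0,233280],[0,233280],[77760]],[[0,0,77760],[0,155520],[77760]],[[0,38880],[38880]],[[7776]]],[[[0,0,0,0,6480],[0,0,0,25920],[0,0,38880],[0,25920],[6480]],[[0,0,0,25920],[0,0,77760],[0,77760],[25920]],[[0,0,38880],[0,77760],[38880]],[[0,25920],[25920]],[[6480]]],[[[0,0,0,2160],[0,0,6480],[0,6480],[2160]],[[0,0,6480],[0,12960],[6480]],[[0,6480],[6480]],[[2160]]],[[[0,0,360],[0,720],[360]],[[0,720],[720]],[[360]]],[[[0,30],[30]],[[30]]],[[[1]]]]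

theorem t7BXP5_ev (u0 u1 u2 u3 : ℝ) : ev4 u0 u1 u2 u3 t7BXP5 = ev4 u0 u1 u2 u3 t7BX ^ 5 := by
  rw [ev4_eq_of_zr u0 u1 u2 u3 t7BXP5 (mul4 t7BXP4 t7BX) (by decide +kernel), ev4_mul, t7BXP4_ev]; ring

def t7BXP6 : P4 := [[[[0,0,0,0,0,0,46656],[0,0,0,0,0,279936],[0,0,0,0,699840],[0,0,0,933120],[0,0,699840],[0,279936],[46656]],[[0,0,0,0,0,279936],[0,0,0,0,1399680],[0,0,0,2799360],[0,0,2799360],[0,1399680],[279936]],[[0,0,0,0,699840],[0,0,0,2799360],[0,0,4199040],[0,2799360],[699840]],[[0,0,0,933120],[0,0,2799360],[0,2799360],[933120]],[[0,0,699840],[0,1399680],[699840]],[[0,279936],[279936]],[[46656]]],[[[0,0,0,0,0,46656],[0,0,0,0,233280],[0,0,0,466560],[0,0,466560],[0,233280],[46656]],[[0,0,0,0,233280],[0,0,0,933120],[0,0,1399680],[0,933120],[233280]],[[0,0,0,466560],[0,0,1399680],[0,1399680],[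466560]],[[0,0,466560],[0,933120],[466560]],[[0,233280],[233280]],[[46656]]],[[[0,0,0,0,19440],[0,0,0,77760],[0,0,116640],[0,77760],[19440]],[[0,0,0,77760],[0,0,233280],[0,233280],[77760]],[[0,0,116640],[0,233280],[116640]],[[0,77760],[77760]],[[19440]]],[[[0,0,0,4320],[0,0,12960],[0,12960],[4320]],[[0,0,12960],[0,25920],[12960]],[[0,12960],[12960]],[[4320]]],[[[0,0,540],[0,1080],[540]],[[0,1080],[1080]],[[540]]],[[[0,36],[36]],[[36]]],[[[1]]]]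

theorem t7BXP6_ev (u0 u1 u2 u3 : ℝ) : ev4 u0 u1 u2 u3 t7BXP6 = ev4 u0 u1 u2 u3 t7BX ^ 6 := by
  rw [ev4_eq_of_zr u0 u1 u2 u3 t7BXP6 (mul4 t7BXP5 t7BX) (by decide +kernel), ev4_mul, t7BXP5_ev]; ring

def t7BXP7 : P4 := [[[[0,0,0,0,0,0,0,279936],[0,0,0,0,0,0,1959552],[0,0,0,0,0,5878656],[0,0,0,0,9797760],[0,0,0,9797760],[0,0,5878656],[0,1959552],[279936]],[[0,0,0,0,0,0,1959552],[0,0,0,0,0,11757312],[0,0,0,0,29393280],[0,0,0,39191040],[0,0,29393280],[0,11757312],[1959552]],[[0,0,0,0,0,5878656],[0,0,0,0,29393280],[0,0,0,58786560],[0,0,58786560],[0,29393280],[5878656]],[[0,0,0,0,9797760],[0,0,0,39191040],[0,0,58786560],[0,39191040],[9797760]],[[0,0,0,9797760],[0,0,29393280],[0,29393280],[9797760]],[[0,0,5878656],[0,11757312],[5878656]],[[0,1959552],[1959552]],[[279936]]],[[[0,0,0,0,0,0,326592],[0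,0,0,0,0,1959552],[0,0,0,0,4898880],[0,0,0,6531840],[0,0,4898880],[0,1959552],[326592]],[[0,0,0,0,0,1959552],[0,0,0,0,9797760],[0,0,0,19595520],[0,0,19595520],[0,9797760],[1959552]],[[0,0,0,0,4898880],[0,0,0,19595520],[0,0,29393280],[0,19595520],[4898880]],[[0,0,0,6531840],[0,0,19595520],[0,19595520],[6531840]],[[0,0,4898880],[0,9797760],[4898880]],[[0,1959552],[1959552]],[[326592]]],[[[0,0,0,0,0,163296],[0,0,0,0,816480],[0,0,0,1632960],[0,0,1632960],[0,816480],[163296]],[[0,0,0,0,816480],[0,0,0,3265920],[0,0,4898880],[0,3265920],[816480]],[[0,0,0,1632960],[0,0,4898880],[0,4898880],[1632960]],[[0,0,1632960],[0,3265920],[1632960]],[[0,816480],[816480]],[[163296]]],[[[0,0,0,0,45360],[0,0,0,181440],[0,0,272160],[0,181440],[45360]],[[0,0,0,181440],[0,0,544320],[0,544320],[181440]],[[0,0,272160],[0,544320],[272160]],[[0,181440],[181440]],[[45360]]],[[[0,0,0,7560],[0,0,22680],[0,22680],[7560]],[[0,0,22680],[0,45360],[22680]],[[0,22680],[22680]],[[7560]]],[[[0,0,756],[0,1512],[756]],[[0,1512],[1512]],[[756]]],[[[0,42],[42]],[[42]]],[[[1]]]]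

theorem t7BXP7_ev (u0 u1 u2 u3 : ℝ) : ev4 u0 u1 u2 u3 t7BXP7 = ev4 u0 u1 u2 u3 t7BX ^ 7 := by
  rw [ev4_eq_of_zr u0 u1 u2 u3 t7BXP7 (mul4 t7BXP6 t7BX) (by decide +kernel), ev4_mul, t7BXP6_ev]; ring

def t7BY : P4 := lin4 1 6 6 0 0

theorem t7BY_ev (u0 u1 u2 u3 : ℝ) : ev4 u0 u1 u2 u3 t7BY = u0 + 6 * u1 + 6 * u2 := by
  rw [t7BY, ev4_lin]; push_cast; ring

def t7BYP0 : P4 := [[[[1]]]]

theorem t7BYP0_ev (u0 u1 u2 u3 : ℝ) : ev4 u0 u1 u2 u3 t7BYP0 = ev4 u0 u1 u2 u3 t7BY ^ 0 := by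
  simp [t7BYP0, ev4, ev3, ev2, ev1, evL]

def t7BYP1 : P4 := [[[[],[6]],[[6]]],[[[1]]]]

theorem t7BYP1_ev (u0 u1 u2 u3 : ℝ) : ev4 u0 u1 u2 u3 t7BYP1 = ev4 u0 u1 u2 u3 t7BY ^ 1 := by
  rw [ev4_eq_of_zr u0 u1 u2 u3 t7BYP1 (mul4 t7BYP0 t7BY) (by decide +kernel), ev4_mul, t7BYP0_ev]; ring

def t7BYP2 : P4 := [[[[],[],[36]],[[],[72]],[[36]]],[[[],[12]],[[12]]],[[[1]]]]

theorem t7BYP2_ev (u0 u1 u2 u3 : ℝ) : ev4 u0 u1 u2 u3 t7BYP2 = ev4 u0 u1 u2 u3 t7BY ^ 2 := by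
  rw [ev4_eq_of_zr u0 u1 u2 u3 t7BYP2 (mul4 t7BYP1 t7BY) (by decide +kernel), ev4_mul, t7BYP1_ev]; ring

def t7BYP3 : P4 := [[[[],[],[],[216]],[[],[],[648]],[[],[648]],[[216]]],[[[],[],[108]],[[],[216]],[[108]]],[[[],[18]],[[18]]],[[[1]]]]

theorem t7BYP3_ev (u0 u1 u2 u3 : ℝ) : ev4 u0 u1 u2 u3 t7BYP3 = ev4 u0 u1 u2 u3 t7BY ^ 3 := by
  rw [ev4_eq_of_zr u0 u1 u2 u3 t7BYP3 (mul4 t7BYP2 t7BY) (by decide +kernel), ev4_mul, t7BYP2_ev]; ring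

def t7BYP4 : P4 := [[[[],[],[],[],[1296]],[[],[],[],[5184]],[[],[],[7776]],[[],[5184]],[[1296]]],[[[],[],[],[864]],[[],[],[2592]],[[],[2592]],[[864]]],[[[],[],[216]],[[],[432]],[[216]]],[[[],[24]],[[24]]],[[[1]]]]

theorem t7BYP4_ev (u0 u1 u2 u3 : ℝ) : ev4 u0 u1 u2 u3 t7BYP4 = ev4 u0 u1 u2 u3 t7BY ^ 4 := by
  rw [ev4_eq_of_zr u0 u1 u2 u3 t7BYP4 (mul4 t7BYP3 t7BY) (by decide +kernel), ev4_mul, t7BYP3_ev]; ring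

def t7BYP5 : P4 := [[[[],[],[],[],[],[7776]],[[],[],[],[],[38880]],[[],[],[],[77760]],[[],[],[77760]],[[],[38880]],[[7776]]],[[[],[],[],[],[6480]],[[],[],[],[25920]],[[],[],[38880]],[[],[25920]],[[6480]]],[[[],[],[],[2160]],[[],[],[6480]],[[],[6480]],[[2160]]],[[[],[],[360]],[[],[720]],[[360]]],[[[],[30]],[[30]]],[[[1]]]]

theorem t7BYP5_ev (u0 u1 u2 u3 : ℝ) : ev4 u0 u1 u2 u3 t7BYP5 = ev4 u0 u1 u2 u3 t7BY ^ 5 := by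
  rw [ev4_eq_of_zr u0 u1 u2 u3 t7BYP5 (mul4 t7BYP4 t7BY) (by decide +kernel), ev4_mul, t7BYP4_ev]; ring

def t7BYP6 : P4 := [[[[],[],[],[],[],[],[46656]],[[],[],[],[],[],[279936]],[[],[],[],[],[699840]],[[],[],[],[933120]],[[],[],[699840]],[[],[279936]],[[46656]]],[[[],[],[],[],[],[46656]],[[],[],[],[],[233280]],[[],[],[],[466560]],[[],[],[466560]],[[],[233280]],[[46656]]],[[[],[],[],[],[19440]],[[],[],[],[77760]],[[],[],[116640]],[[],[77760]],[[19440]]],[[[],[],[],[4320]],[[],[],[12960]],[[],[12960]],[[4320]]],[[[],[],[540]],[[],[1080]],[[540]]],[[[],[36]],[[36]]],[[[1]]]]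

theorem t7BYP6_ev (u0 u1 u2 u3 : ℝ) : ev4 u0 u1 u2 u3 t7BYP6 = ev4 u0 u1 u2 u3 t7BY ^ 6 := by
  rw [ev4_eq_of_zr u0 u1 u2 u3 t7BYP6 (mul4 t7BYP5 t7BY) (by decide +kernel), ev4_mul, t7BYP5_ev]; ring

def t7BYP7 : P4 := [[[[],[],[],[],[],[],[],[279936]],[[],[],[],[],[],[],[1959552]],[[],[],[],[],[],[5878656]],[[],[],[],[],[9797760]],[[],[],[],[9797760]],[[],[],[5878656]],[[],[1959552]],[[279936]]],[[[],[],[],[],[],[],[326592]],[[],[],[],[],[],[1959552]],[[],[],[],[],[4898880]],[[],[],[],[6531840]],[[],[],[4898880]],[[],[1959552]],[[326592]]],[[[],[],[],[],[],[163296]],[[],[],[],[],[816480]],[[],[],[],[1632960]],[[],[],[1632960]],[[],[816480]],[[163296]]],[[[],[],[],[],[45360]],[[],[],[],[181440]],[[],[],[272160]],[[],[181440]],[[45360]]],[[[],[],[],[7560]],[[],[],[22680]],[[],[22680]],[[7560]]],[[[],[],[756]],[[],[1512]],[[756]]],[[[],[42]],[[42]]],[[[1]]]]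

theorem t7BYP7_ev (u0 u1 u2 u3 : ℝ) : ev4 u0 u1 u2 u3 t7BYP7 = ev4 u0 u1 u2 u3 t7BY ^ 7 := by
  rw [ev4_eq_of_zr u0 u1 u2 u3 t7BYP7 (mul4 t7BYP6 t7BY) (by decide +kernel), ev4_mul, t7BYP6_ev]; ring

def t7BZ : P4 := lin4 1 6 0 0 0

theorem t7BZ_ev (u0 u1 u2 u3 : ℝ) : ev4 u0 u1 u2 u3 t7BZ = u0 + 6 * u1 := by
  rw [t7BZ, ev4_lin]; push_cast; ring

def t7BZP0 : P4 := [[[[1]]]]

theorem t7BZP0_ev (u0 u1 u2 u3 : ℝ) : ev4 u0 u1 u2 u3 t7BZP0 = ev4 u0 u1 u2 u3 t7BZ ^ 0 := by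
  simp [t7BZP0, ev4, ev3, ev2, ev1, evL]

def t7BZP1 : P4 := [[[],[[6]]],[[[1]]]]

theorem t7BZP1_ev (u0 u1 u2 u3 : ℝ) : ev4 u0 u1 u2 u3 t7BZP1 = ev4 u0 u1 u2 u3 t7BZ ^ 1 := by
  rw [ev4_eq_of_zr u0 u1 u2 u3 t7BZP1 (mul4 t7BZP0 t7BZ) (by decide +kernel), ev4_mul, t7BZP0_ev]; ring

def t7BZP2 : P4 := [[[],[],[[36]]],[[],[[12]]],[[[1]]]]

theorem t7BZP2_ev (u0 u1 u2 u3 : ℝ) : ev4 u0 u1 u2 u3 t7BZP2 = ev4 u0 u1 u2 u3 t7BZ ^ 2 := by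
  rw [ev4_eq_of_zr u0 u1 u2 u3 t7BZP2 (mul4 t7BZP1 t7BZ) (by decide +kernel), ev4_mul, t7BZP1_ev]; ring

def t7BZP3 : P4 := [[[],[],[],[[216]]],[[],[],[[108]]],[[],[[18]]],[[[1]]]]

theorem t7BZP3_ev (u0 u1 u2 u3 : ℝ) : ev4 u0 u1 u2 u3 t7BZP3 = ev4 u0 u1 u2 u3 t7BZ ^ 3 := by
  rw [ev4_eq_of_zr u0 u1 u2 u3 t7BZP3 (mul4 t7BZP2 t7BZ) (by decide +kernel), ev4_mul, t7BZP2_ev]; ring

def t7BZP4 : P4 := [[[],[],[],[],[[1296]]],[[],[],[],[[864]]],[[],[],[[216]]],[[],[[24]]],[[[1]]]]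

theorem t7BZP4_ev (u0 u1 u2 u3 : ℝ) : ev4 u0 u1 u2 u3 t7BZP4 = ev4 u0 u1 u2 u3 t7BZ ^ 4 := by
  rw [ev4_eq_of_zr u0 u1 u2 u3 t7BZP4 (mul4 t7BZP3 t7BZ) (by decide +kernel), ev4_mul, t7BZP3_ev]; ring

def t7BZP5 : P4 := [[[],[],[],[],[],[[7776]]],[[],[],[],[],[[6480]]],[[],[],[],[[2160]]],[[],[],[[360]]],[[],[[30]]],[[[1]]]]

theorem t7BZP5_ev (u0 u1 u2 u3 : ℝ) : ev4 u0 u1 u2 u3 t7BZP5 = ev4 u0 u1 u2 u3 t7BZ ^ 5 := by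
  rw [ev4_eq_of_zr u0 u1 u2 u3 t7BZP5 (mul4 t7BZP4 t7BZ) (by decide +kernel), ev4_mul, t7BZP4_ev]; ring

def t7BZP6 : P4 := [[[],[],[],[],[],[],[[46656]]],[[],[],[],[],[],[[46656]]],[[],[],[],[],[[19440]]],[[],[],[],[[4320]]],[[],[],[[540]]],[[],[[36]]],[[[1]]]]

theorem t7BZP6_ev (u0 u1 u2 u3 : ℝ) : ev4 u0 u1 u2 u3 t7BZP6 = ev4 u0 u1 u2 u3 t7BZ ^ 6 := by
  rw [ev4_eq_of_zr u0 u1 u2 u3 t7BZP6 (mul4 t7BZP5 t7BZ) (by decide +kernel), ev4_mul, t7BZP5_ev]; ring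

def t7BZP7 : P4 := [[[],[],[],[],[],[],[],[[279936]]],[[],[],[],[],[],[],[[326592]]],[[],[],[],[],[],[[163296]]],[[],[],[],[],[[45360]]],[[],[],[],[[7560]]],[[],[],[[756]]],[[],[[42]]],[[[1]]]]

theorem t7BZP7_ev (u0 u1 u2 u3 : ℝ) : ev4 u0 u1 u2 u3 t7BZP7 = ev4 u0 u1 u2 u3 t7BZ ^ 7 := by
  rw [ev4_eq_of_zr u0 u1 u2 u3 t7BZP7 (mul4 t7BZP6 t7BZ) (by decide +kernel), ev4_mul, t7BZP6_ev]; ring

def t7BW : P4 := lin4 1 0 0 0 0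

theorem t7BW_ev (u0 u1 u2 u3 : ℝ) : ev4 u0 u1 u2 u3 t7BW = u0 := by
  rw [t7BW, ev4_lin]; push_cast; ring

def t7BWP0 : P4 := [[[[1]]]]

theorem t7BWP0_ev (u0 u1 u2 u3 : ℝ) : ev4 u0 u1 u2 u3 t7BWP0 = ev4 u0 u1 u2 u3 t7BW ^ 0 := by
  simp [t7BWP0, ev4, ev3, ev2, ev1, evL]

def t7BWP1 : P4 := [[],[[[1]]]]

theorem t7BWP1_ev (u0 u1 u2 u3 : ℝ) : ev4 u0 u1 u2 u3 t7BWP1 = ev4 u0 u1 u2 u3 t7BW ^ 1 := by
  rw [ev4_eq_of_zr u0 u1 u2 u3 t7BWP1 (mul4 t7BWP0 t7BW) (by decide +kernel), ev4_mul, t7BWP0_ev]; ring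

def t7BWP2 : P4 := [[],[],[[[1]]]]

theorem t7BWP2_ev (u0 u1 u2 u3 : ℝ) : ev4 u0 u1 u2 u3 t7BWP2 = ev4 u0 u1 u2 u3 t7BW ^ 2 := by
  rw [ev4_eq_of_zr u0 u1 u2 u3 t7BWP2 (mul4 t7BWP1 t7BW) (by decide +kernel), ev4_mul, t7BWP1_ev]; ring

def t7BWP3 : P4 := [[],[],[],[[[1]]]]

theorem t7BWP3_ev (u0 u1 u2 u3 : ℝ) : ev4 u0 u1 u2 u3 t7BWP3 = ev4 u0 u1 u2 u3 t7BW ^ 3 := by
  rw [ev4_eq_of_zr u0 u1 u2 u3 t7BWP3 (mul4 t7BWP2 t7BW) (by decide +kernel), ev4_mul, t7BWP2_ev]; ring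

def t7BWP4 : P4 := [[],[],[],[],[[[1]]]]

theorem t7BWP4_ev (u0 u1 u2 u3 : ℝ) : ev4 u0 u1 u2 u3 t7BWP4 = ev4 u0 u1 u2 u3 t7BW ^ 4 := by
  rw [ev4_eq_of_zr u0 u1 u2 u3 t7BWP4 (mul4 t7BWP3 t7BW) (by decide +kernel), ev4_mul, t7BWP3_ev]; ring

def t7BWP5 : P4 := [[],[],[],[],[],[[[1]]]]

theorem t7BWP5_ev (u0 u1 u2 u3 : ℝ) : ev4 u0 u1 u2 u3 t7BWP5 = ev4 u0 u1 u2 u3 t7BW ^ 5 := by
  rw [ev4_eq_of_zr u0 u1 u2 u3 t7BWP5 (mul4 t7BWP4 t7BW) (by decide +kernel), ev4_mul, t7BWP4_ev]; ring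

def t7BWP6 : P4 := [[],[],[],[],[],[],[[[1]]]]

theorem t7BWP6_ev (u0 u1 u2 u3 : ℝ) : ev4 u0 u1 u2 u3 t7BWP6 = ev4 u0 u1 u2 u3 t7BW ^ 6 := by
  rw [ev4_eq_of_zr u0 u1 u2 u3 t7BWP6 (mul4 t7BWP5 t7BW) (by decide +kernel), ev4_mul, t7BWP5_ev]; ring

def t7BWP7 : P4 := [[],[],[],[],[],[],[],[[[1]]]]

theorem t7BWP7_ev (u0 u1 u2 u3 : ℝ) : ev4 u0 u1 u2 u3 t7BWP7 = ev4 u0 u1 u2 u3 t7BW ^ 7 := by
  rw [ev4_eq_of_zr u0 u1 u2 u3 t7BWP7 (mul4 t7BWP6 t7BW) (by decide +kernel), ev4_mul, t7BWP6_ev]; ring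

end Vale.Agent.P154
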