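import Vale.Agent.P154.R4.T7.AP3_0

namespace Vale.Agent.P154

set_option maxRecDepth 1000000
set_option maxHeartbeats 4000000

def t7F_0 : List ℤ := [0,0,0,0,0,0,0,0,0,0,0,0,0,0,0,0,0,0,0,0,0,0,0,0,0,0,0,0,0,0,0,0,0,0,0,0,0,0,0,0,0,0,0,0,0,0,0,0,0,0,0,6,12,6,0,12,36,24,6,36,36,12,24,6,0,0,0,0,0,0,0,0,18,36,18,0,54,162,108,36,216,216,90,180,54,0,0,12,24,12,0,72,216,144,72,432,432,240,480,180,0,30,90,60,60,360,360,300,600,300,18,108,108,180,360,270,42,84,126,24]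

theorem t7F_0_ev (u0 u1 u2 u3 : ℝ) : dotR t7F_0 (ms7.map (monoR u0 u1 u2 u3)) = pm4 (ev4 u0 u1 u2 u3 t7AX) (ev4 u0 u1 u2 u3 t7AY) (ev4 u0 u1 u2 u3 t7AZ) (ev4 u0 u1 u2 u3 t7AW) 2 2 2 1 := by
  rw [← ev4_unfl, ev4_eq_of_zr u0 u1 u2 u3 (unfl ms7 t7F_0) (add4 (add4 (add4 (mul4 t7AXP2 t7AP3_2_2_1) (mul4 t7AXP2 t7AP3_2_2_1)) (mul4 t7AXP2 t7AP3_2_2_1)) (mul4 t7AXP1 t7AP3_2_2_2)) (by decide +kernel)]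
  simp only [ev4_add, ev4_mul, t7AXP2_ev, t7AXP2_ev, t7AXP2_ev, t7AXP1_ev, t7AP3_2_2_1_ev, t7AP3_2_2_1_ev, t7AP3_2_2_1_ev, t7AP3_2_2_2_ev, pm4]

theorem t7F_0_good (u0 u1 u2 u3 : ℝ) : GoodE 7 (u0 + u1 + u2 + u3) (u0 + u1 + u2) (u0 + u1) u0 (4 * u0 + 3 * u1 + 2 * u2 + u3) (ms7.map (monoR u0 u1 u2 u3)) ((2,2,2,1), t7F_0) := by
  have h := t7F_0_ev u0 u1 u2 u3
  rw [t7AX_ev, t7AY_ev, t7AZ_ev, t7AW_ev] at h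
  unfold GoodE
  simpa using h

def t7F_1 : List ℤ := [0,0,0,0,0,0,0,0,0,0,0,0,0,0,0,0,0,0,0,0,0,0,0,0,0,0,0,0,0,0,0,0,0,0,0,0,0,0,0,0,0,0,0,0,0,2,8,10,4,0,6,30,48,24,4,38,90,60,16,76,76,24,48,12,0,0,2,8,10,4,0,14,66,104,52,14,126,294,196,70,330,330,130,260,78,0,8,36,56,28,16,140,324,216,116,548,548,288,576,216,6,52,120,80,86,410,410,324,648,324,24,116,116,184,368,276,42,84,126,24]

theorem t7F_1_ev (u0 u1 u2 u3 : ℝ) : dotR t7F_1 (ms7.map (monoR u0 u1 u2 u3)) = pm4 (ev4 u0 u1 u2 u3 t7AX) (ev4 u0 u1 u2 u3 t7AY) (ev4 u0 u1 u2 u3 t7AZ) (ev4 u0 u1 u2 u3 t7AW) 3 2 1 1 := by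
  rw [← ev4_unfl, ev4_eq_of_zr u0 u1 u2 u3 (unfl ms7 t7F_1) (add4 (add4 (add4 (mul4 t7AXP3 t7AP3_2_1_1) (mul4 t7AXP2 t7AP3_3_1_1)) (mul4 t7AXP1 t7AP3_3_2_1)) (mul4 t7AXP1 t7AP3_3_2_1)) (by decide +kernel)]
  simp only [ev4_add, ev4_mul, t7AXP3_ev, t7AXP2_ev, t7AXP1_ev, t7AXP1_ev, t7AP3_2_1_1_ev, t7AP3_3_1_1_ev, t7AP3_3_2_1_ev, t7AP3_3_2_1_ev, pm4]

theorem t7F_1_good (u0 u1 u2 u3 : ℝ) : GoodE 7 (u0 + u1 + u2 + u3) (u0 + u1 + u2) (u0 + u1) u0 (4 * u0 + 3 * u1 + 2 * u2 + u3) (ms7.map (monoR u0 u1 u2 u3)) ((3,2,1,1), t7F_1) := by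
  have h := t7F_1_ev u0 u1 u2 u3
  rw [t7AX_ev, t7AY_ev, t7AZ_ev, t7AW_ev] at h
  unfold GoodE
  simpa using h

def t7F_2 : List ℤ := [0,0,0,0,0,0,0,0,0,0,0,0,0,0,0,0,0,2,8,10,4,0,4,26,44,22,2,28,72,48,10,52,52,14,28,6,0,0,0,0,0,0,0,0,0,4,16,20,8,0,12,78,132,66,8,112,288,192,50,260,260,84,168,42,0,0,4,16,20,8,0,16,102,172,86,16,198,498,332,116,576,576,230,460,138,0,8,52,88,44,16,176,432,288,152,704,704,368,736,276,6,62,150,100,106,460,460,354,708,354,30,124,124,188,376,282,42,84,126,24]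

theorem t7F_2_ev (u0 u1 u2 u3 : ℝ) : dotR t7F_2 (ms7.map (monoR u0 u1 u2 u3)) = pm4 (ev4 u0 u1 u2 u3 t7AX) (ev4 u0 u1 u2 u3 t7AY) (ev4 u0 u1 u2 u3 t7AZ) (ev4 u0 u1 u2 u3 t7AW) 3 2 2 0 := by
  rw [← ev4_unfl, ev4_eq_of_zr u0 u1 u2 u3 (unfl ms7 t7F_2) (add4 (add4 (add4 (mul4 t7AXP3 t7AP3_2_2_0) (mul4 t7AXP2 t7AP3_3_2_0)) (mul4 t7AXP2 t7AP3_3_2_0)) (mul4 t7AXP0 t7AP3_3_2_2)) (by decide +kernel)]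
  simp only [ev4_add, ev4_mul, t7AXP3_ev, t7AXP2_ev, t7AXP2_ev, t7AXP0_ev, t7AP3_2_2_0_ev, t7AP3_3_2_0_ev, t7AP3_3_2_0_ev, t7AP3_3_2_2_ev, pm4]

theorem t7F_2_good (u0 u1 u2 u3 : ℝ) : GoodE 7 (u0 + u1 + u2 + u3) (u0 + u1 + u2) (u0 + u1) u0 (4 * u0 + 3 * u1 + 2 * u2 + u3) (ms7.map (monoR u0 u1 u2 u3)) ((3,2,2,0), t7F_2) := by
  have h := t7F_2_ev u0 u1 u2 u3
  rw [t7AX_ev, t7AY_ev, t7AZ_ev, t7AW_ev] at h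
  unfold GoodE
  simpa using h

def t7F_3 : List ℤ := [0,0,0,0,0,0,0,0,0,0,0,2,6,6,2,0,0,6,24,30,12,0,8,42,68,34,4,36,84,56,12,54,54,14,28,6,0,0,0,4,12,12,4,0,0,18,72,90,36,0,30,162,264,132,20,174,402,268,72,312,312,96,192,48,0,0,12,48,60,24,0,36,198,324,162,36,306,702,468,168,708,708,270,540,162,0,16,84,136,68,32,252,564,376,204,828,828,416,832,312,12,84,180,120,132,510,510,378,756,378,36,132,132,192,384,288,42,84,126,24]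

theorem t7F_3_ev (u0 u1 u2 u3 : ℝ) : dotR t7F_3 (ms7.map (monoR u0 u1 u2 u3)) = pm4 (ev4 u0 u1 u2 u3 t7AX) (ev4 u0 u1 u2 u3 t7AY) (ev4 u0 u1 u2 u3 t7AZ) (ev4 u0 u1 u2 u3 t7AW) 3 3 1 0 := by
  rw [← ev4_unfl, ev4_eq_of_zr u0 u1 u2 u3 (unfl ms7 t7F_3) (add4 (add4 (add4 (mul4 t7AXP3 t7AP3_3_1_0) (mul4 t7AXP3 t7AP3_3_1_0)) (mul4 t7AXP1 t7AP3_3_3_0)) (mul4 t7AXP0 t7AP3_3_3_1)) (by decide +kernel)]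
  simp only [ev4_add, ev4_mul, t7AXP3_ev, t7AXP3_ev, t7AXP1_ev, t7AXP0_ev, t7AP3_3_1_0_ev, t7AP3_3_1_0_ev, t7AP3_3_3_0_ev, t7AP3_3_3_1_ev, pm4]

theorem t7F_3_good (u0 u1 u2 u3 : ℝ) : GoodE 7 (u0 + u1 + u2 + u3) (u0 + u1 + u2) (u0 + u1) u0 (4 * u0 + 3 * u1 + 2 * u2 + u3) (ms7.map (monoR u0 u1 u2 u3)) ((3,3,1,0), t7F_3) := by
  have h := t7F_3_ev u0 u1 u2 u3
  rw [t7AX_ev, t7AY_ev, t7AZ_ev, t7AW_ev] at h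
  unfold GoodE
  simpa using h

def t7F_4 : List ℤ := [0,0,0,0,0,0,0,0,0,0,0,0,0,0,0,0,0,0,0,0,0,0,0,0,0,0,0,0,0,0,0,0,0,0,0,0,0,0,0,0,0,0,0,0,6,24,36,30,12,6,48,108,120,60,24,108,180,120,36,126,126,36,72,18,0,6,24,36,30,12,12,96,216,240,120,72,324,540,360,144,504,504,180,360,108,6,48,108,120,60,72,324,540,360,216,756,756,360,720,270,24,108,180,120,144,510,510,366,732,366,36,132,132,192,384,288,42,84,126,24]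

theorem t7F_4_ev (u0 u1 u2 u3 : ℝ) : dotR t7F_4 (ms7.map (monoR u0 u1 u2 u3)) = pm4 (ev4 u0 u1 u2 u3 t7AX) (ev4 u0 u1 u2 u3 t7AY) (ev4 u0 u1 u2 u3 t7AZ) (ev4 u0 u1 u2 u3 t7AW) 4 1 1 1 := by
  rw [← ev4_unfl, ev4_eq_of_zr u0 u1 u2 u3 (unfl ms7 t7F_4) (add4 (add4 (add4 (mul4 t7AXP4 t7AP3_1_1_1) (mul4 t7AXP1 t7AP3_4_1_1)) (mul4 t7AXP1 t7AP3_4_1_1)) (mul4 t7AXP1 t7AP3_4_1_1)) (by decide +kernel)]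
  simp only [ev4_add, ev4_mul, t7AXP4_ev, t7AXP1_ev, t7AXP1_ev, t7AXP1_ev, t7AP3_1_1_1_ev, t7AP3_4_1_1_ev, t7AP3_4_1_1_ev, t7AP3_4_1_1_ev, pm4]

theorem t7F_4_good (u0 u1 u2 u3 : ℝ) : GoodE 7 (u0 + u1 + u2 + u3) (u0 + u1 + u2) (u0 + u1) u0 (4 * u0 + 3 * u1 + 2 * u2 + u3) (ms7.map (monoR u0 u1 u2 u3)) ((4,1,1,1), t7F_4) := by
  have h := t7F_4_ev u0 u1 u2 u3
  rw [t7AX_ev, t7AY_ev, t7AZ_ev, t7AW_ev] at h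
  unfold GoodE
  simpa using h

end Vale.Agent.P154
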