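import Vale.Agent.P154.R4.T7.AP3_0

namespace Vale.Agent.P154

set_option maxRecDepth 1000000
set_option maxHeartbeats 4000000

def t7F_5 : List ℤ := [0,0,0,0,0,0,0,0,0,0,1,4,7,6,2,0,3,16,34,35,14,2,20,60,80,40,8,47,93,62,14,56,56,14,28,6,0,0,2,8,14,12,4,0,8,44,96,100,40,8,76,228,304,152,40,228,444,296,84,324,324,96,192,48,0,6,32,68,70,28,12,104,300,392,196,80,432,816,544,208,768,768,280,560,168,6,48,132,168,84,72,368,672,448,260,920,920,440,880,330,24,118,210,140,164,560,560,396,792,396,42,140,140,196,392,294,42,84,126,24]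

theorem t7F_5_ev (u0 u1 u2 u3 : ℝ) : dotR t7F_5 (ms7.map (monoR u0 u1 u2 u3)) = pm4 (ev4 u0 u1 u2 u3 t7AX) (ev4 u0 u1 u2 u3 t7AY) (ev4 u0 u1 u2 u3 t7AZ) (ev4 u0 u1 u2 u3 t7AW) 4 2 1 0 := by
  rw [← ev4_unfl, ev4_eq_of_zr u0 u1 u2 u3 (unfl ms7 t7F_5) (add4 (add4 (add4 (mul4 t7AXP4 t7AP3_2_1_0) (mul4 t7AXP2 t7AP3_4_1_0)) (mul4 t7AXP1 t7AP3_4_2_0)) (mul4 t7AXP0 t7AP3_4_2_1)) (by decide +kernel)]
  simp only [ev4_add, ev4_mul, t7AXP4_ev, t7AXP2_ev, t7AXP1_ev, t7AXP0_ev, t7AP3_2_1_0_ev, t7AP3_4_1_0_ev, t7AP3_4_2_0_ev, t7AP3_4_2_1_ev, pm4]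

theorem t7F_5_good (u0 u1 u2 u3 : ℝ) : GoodE 7 (u0 + u1 + u2 + u3) (u0 + u1 + u2) (u0 + u1) u0 (4 * u0 + 3 * u1 + 2 * u2 + u3) (ms7.map (monoR u0 u1 u2 u3)) ((4,2,1,0), t7F_5) := by
  have h := t7F_5_ev u0 u1 u2 u3
  rw [t7AX_ev, t7AY_ev, t7AZ_ev, t7AW_ev] at h
  unfold GoodE
  simpa using h

def t7F_6 : List ℤ := [0,0,0,2,10,18,14,4,0,0,6,40,90,84,28,0,6,60,180,210,84,4,48,192,288,144,20,120,240,160,36,120,120,28,56,12,0,0,6,40,90,84,28,0,12,120,360,420,168,12,144,576,864,432,80,480,960,640,180,600,600,168,336,84,0,6,60,180,210,84,12,144,576,864,432,120,720,1440,960,360,1200,1200,420,840,252,6,56,204,296,148,88,504,984,656,372,1224,1224,568,1136,426,30,150,270,180,210,660,660,450,900,450,54,156,156,204,408,306,42,84,126,24]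

theorem t7F_6_ev (u0 u1 u2 u3 : ℝ) : dotR t7F_6 (ms7.map (monoR u0 u1 u2 u3)) = pm4 (ev4 u0 u1 u2 u3 t7AX) (ev4 u0 u1 u2 u3 t7AY) (ev4 u0 u1 u2 u3 t7AZ) (ev4 u0 u1 u2 u3 t7AW) 4 3 0 0 := by
  rw [← ev4_unfl, ev4_eq_of_zr u0 u1 u2 u3 (unfl ms7 t7F_6) (add4 (add4 (add4 (mul4 t7AXP4 t7AP3_3_0_0) (mul4 t7AXP3 t7AP3_4_0_0)) (mul4 t7AXP0 t7AP3_4_3_0)) (mul4 t7AXP0 t7AP3_4_3_0)) (by decide +kernel)]
  simp only [ev4_add, ev4_mul, t7AXP4_ev, t7AXP3_ev, t7AXP0_ev, t7AXP0_ev, t7AP3_3_0_0_ev, t7AP3_4_0_0_ev, t7AP3_4_3_0_ev, t7AP3_4_3_0_ev, pm4]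

theorem t7F_6_good (u0 u1 u2 u3 : ℝ) : GoodE 7 (u0 + u1 + u2 + u3) (u0 + u1 + u2) (u0 + u1) u0 (4 * u0 + 3 * u1 + 2 * u2 + u3) (ms7.map (monoR u0 u1 u2 u3)) ((4,3,0,0), t7F_6) := by
  have h := t7F_6_ev u0 u1 u2 u3
  rw [t7AX_ev, t7AY_ev, t7AZ_ev, t7AW_ev] at h
  unfold GoodE
  simpa using h

def t7F_7 : List ℤ := [0,0,0,0,0,0,0,0,0,2,10,20,20,12,4,2,20,60,80,60,24,10,60,120,120,60,20,80,120,80,20,62,62,14,28,6,0,4,20,40,40,24,8,8,70,200,260,190,76,50,280,540,520,260,120,460,660,440,140,410,410,108,216,54,6,50,140,180,130,52,70,380,720,680,340,240,900,1260,840,360,1020,1020,330,660,198,30,160,300,280,140,200,740,1020,680,440,1220,1220,520,1040,390,60,220,300,200,260,710,710,450,900,450,60,164,164,208,416,312,42,84,126,24]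

theorem t7F_7_ev (u0 u1 u2 u3 : ℝ) : dotR t7F_7 (ms7.map (monoR u0 u1 u2 u3)) = pm4 (ev4 u0 u1 u2 u3 t7AX) (ev4 u0 u1 u2 u3 t7AY) (ev4 u0 u1 u2 u3 t7AZ) (ev4 u0 u1 u2 u3 t7AW) 5 1 1 0 := by
  rw [← ev4_unfl, ev4_eq_of_zr u0 u1 u2 u3 (unfl ms7 t7F_7) (add4 (add4 (add4 (mul4 t7AXP5 t7AP3_1_1_0) (mul4 t7AXP1 t7AP3_5_1_0)) (mul4 t7AXP1 t7AP3_5_1_0)) (mul4 t7AXP0 t7AP3_5_1_1)) (by decide +kernel)]
  simp only [ev4_add, ev4_mul, t7AXP5_ev, t7AXP1_ev, t7AXP1_ev, t7AXP0_ev, t7AP3_1_1_0_ev, t7AP3_5_1_0_ev, t7AP3_5_1_0_ev, t7AP3_5_1_1_ev, pm4]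

theorem t7F_7_good (u0 u1 u2 u3 : ℝ) : GoodE 7 (u0 + u1 + u2 + u3) (u0 + u1 + u2) (u0 + u1) u0 (4 * u0 + 3 * u1 + 2 * u2 + u3) (ms7.map (monoR u0 u1 u2 u3)) ((5,1,1,0), t7F_7) := by
  have h := t7F_7_ev u0 u1 u2 u3
  rw [t7AX_ev, t7AY_ev, t7AZ_ev, t7AW_ev] at h
  unfold GoodE
  simpa using h

def t7F_8 : List ℤ := [0,0,2,10,20,22,14,4,0,4,30,80,110,84,28,4,40,140,240,220,88,20,120,280,320,160,40,170,270,180,44,128,128,28,56,12,0,4,30,80,110,84,28,8,80,280,480,440,176,60,360,840,960,480,160,680,1080,720,220,640,640,168,336,84,6,50,160,260,230,92,70,400,900,1000,500,260,1080,1680,1120,460,1320,1320,430,860,258,30,160,340,360,180,200,800,1200,800,500,1400,1400,600,1200,450,60,230,330,220,280,760,760,480,960,480,66,172,172,212,424,318,42,84,126,24]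

theorem t7F_8_ev (u0 u1 u2 u3 : ℝ) : dotR t7F_8 (ms7.map (monoR u0 u1 u2 u3)) = pm4 (ev4 u0 u1 u2 u3 t7AX) (ev4 u0 u1 u2 u3 t7AY) (ev4 u0 u1 u2 u3 t7AZ) (ev4 u0 u1 u2 u3 t7AW) 5 2 0 0 := by
  rw [← ev4_unfl, ev4_eq_of_zr u0 u1 u2 u3 (unfl ms7 t7F_8) (add4 (add4 (add4 (mul4 t7AXP5 t7AP3_2_0_0) (mul4 t7AXP2 t7AP3_5_0_0)) (mul4 t7AXP0 t7AP3_5_2_0)) (mul4 t7AXP0 t7AP3_5_2_0)) (by decide +kernel)]
  simp only [ev4_add, ev4_mul, t7AXP5_ev, t7AXP2_ev, t7AXP0_ev, t7AXP0_ev, t7AP3_2_0_0_ev, t7AP3_5_0_0_ev, t7AP3_5_2_0_ev, t7AP3_5_2_0_ev, pm4]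

theorem t7F_8_good (u0 u1 u2 u3 : ℝ) : GoodE 7 (u0 + u1 + u2 + u3) (u0 + u1 + u2) (u0 + u1) u0 (4 * u0 + 3 * u1 + 2 * u2 + u3) (ms7.map (monoR u0 u1 u2 u3)) ((5,2,0,0), t7F_8) := by
  have h := t7F_8_ev u0 u1 u2 u3
  rw [t7AX_ev, t7AY_ev, t7AZ_ev, t7AW_ev] at h
  unfold GoodE
  simpa using h

def t7F_9 : List ℤ := [0,2,12,30,40,30,14,4,4,36,120,200,180,96,32,24,150,360,420,270,108,60,280,480,400,200,80,270,330,220,60,144,144,28,56,12,6,48,150,240,210,108,36,60,360,840,960,600,240,210,960,1620,1320,660,360,1200,1440,960,330,780,780,180,360,90,36,210,480,540,330,132,240,1080,1800,1440,720,600,1980,2340,1560,720,1680,1680,480,960,288,90,400,660,520,260,440,1440,1680,1120,780,1800,1800,680,1360,510,120,390,450,300,420,960,960,540,1080,540,90,204,204,228,456,342,42,84,126,24]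

theorem t7F_9_ev (u0 u1 u2 u3 : ℝ) : dotR t7F_9 (ms7.map (monoR u0 u1 u2 u3)) = pm4 (ev4 u0 u1 u2 u3 t7AX) (ev4 u0 u1 u2 u3 t7AY) (ev4 u0 u1 u2 u3 t7AZ) (ev4 u0 u1 u2 u3 t7AW) 6 1 0 0 := by
  rw [← ev4_unfl, ev4_eq_of_zr u0 u1 u2 u3 (unfl ms7 t7F_9) (add4 (add4 (add4 (mul4 t7AXP6 t7AP3_1_0_0) (mul4 t7AXP1 t7AP3_6_0_0)) (mul4 t7AXP0 t7AP3_6_1_0)) (mul4 t7AXP0 t7AP3_6_1_0)) (by decide +kernel)]
  simp only [ev4_add, ev4_mul, t7AXP6_ev, t7AXP1_ev, t7AXP0_ev, t7AXP0_ev, t7AP3_1_0_0_ev, t7AP3_6_0_0_ev, t7AP3_6_1_0_ev, t7AP3_6_1_0_ev, pm4]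

theorem t7F_9_good (u0 u1 u2 u3 : ℝ) : GoodE 7 (u0 + u1 + u2 + u3) (u0 + u1 + u2) (u0 + u1) u0 (4 * u0 + 3 * u1 + 2 * u2 + u3) (ms7.map (monoR u0 u1 u2 u3)) ((6,1,0,0), t7F_9) := by
  have h := t7F_9_ev u0 u1 u2 u3
  rw [t7AX_ev, t7AY_ev, t7AZ_ev, t7AW_ev] at h
  unfold GoodE
  simpa using h

def t7F_10 : List ℤ := [6,42,126,210,210,126,42,12,42,252,630,840,630,252,84,126,630,1260,1260,630,252,210,840,1260,840,420,210,630,630,420,126,252,252,42,84,18,42,252,630,840,630,252,84,252,1260,2520,2520,1260,504,630,2520,3780,2520,1260,840,2520,2520,1680,630,1260,1260,252,504,126,126,630,1260,1260,630,252,630,2520,3780,2520,1260,1260,3780,3780,2520,1260,2520,2520,630,1260,378,210,840,1260,840,420,840,2520,2520,1680,1260,2520,2520,840,1680,630,210,630,630,420,630,1260,1260,630,1260,630,126,252,252,252,504,378,42,84,126,24]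

theorem t7F_10_ev (u0 u1 u2 u3 : ℝ) : dotR t7F_10 (ms7.map (monoR u0 u1 u2 u3)) = pm4 (ev4 u0 u1 u2 u3 t7AX) (ev4 u0 u1 u2 u3 t7AY) (ev4 u0 u1 u2 u3 t7AZ) (ev4 u0 u1 u2 u3 t7AW) 7 0 0 0 := by
  rw [← ev4_unfl, ev4_eq_of_zr u0 u1 u2 u3 (unfl ms7 t7F_10) (add4 (add4 (add4 (mul4 t7AXP7 t7AP3_0_0_0) (mul4 t7AXP0 t7AP3_7_0_0)) (mul4 t7AXP0 t7AP3_7_0_0)) (mul4 t7AXP0 t7AP3_7_0_0)) (by decide +kernel)]
  simp only [ev4_add, ev4_mul, t7AXP7_ev, t7AXP0_ev, t7AXP0_ev, t7AXP0_ev, t7AP3_0_0_0_ev, t7AP3_7_0_0_ev, t7AP3_7_0_0_ev, t7AP3_7_0_0_ev, pm4]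

theorem t7F_10_good (u0 u1 u2 u3 : ℝ) : GoodE 7 (u0 + u1 + u2 + u3) (u0 + u1 + u2) (u0 + u1) u0 (4 * u0 + 3 * u1 + 2 * u2 + u3) (ms7.map (monoR u0 u1 u2 u3)) ((7,0,0,0), t7F_10) := by
  have h := t7F_10_ev u0 u1 u2 u3
  rw [t7AX_ev, t7AY_ev, t7AZ_ev, t7AW_ev] at h
  unfold GoodE
  simpa using h

end Vale.Agent.P154
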